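import Vale.Agent.P352X.EG.Pub
import Vale.Agent.P352X.CL.Pub0

namespace Vale.Agent.P352NA

open P352 GF BW H246 SubConf
open UniformSpace (Completion)

variable {D : Type*} [NormedAddCommGroup D] [InnerProductSpace ℂ D]

/-- The vectors that are generated from the vacuum by the fields: the vectors in all subspaces that
contain the vacuum and are invariant under the smeared fields. -/
def Cyc (Q : Theory D) (w : D) : Prop := ∀ S : Submodule ℂ D, Q.vac ∈ S →
  (∀ A f v, Q.fld A → IsTest f → v ∈ S → A f v ∈ S) → w ∈ S

/-- The theory `Q'` extends the theory `Q` in the same Hilbert space: its domain `D'` contains all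
vectors that are generated from the vacuum by the fields of `Q`, the vacuum and the representation
of the similitudes are those of `Q`, and every field `B` of `Q` gives a Bose field `e B` of `Q'`,
which agrees with `B` on these vectors; adjoints go to adjoints. -/
structure Ext0 (Q : Theory D) {D' : Submodule ℂ (Completion D)} (Q' : Theory D')
    (e : Fld D → Fld D') : Prop where
  mem : ∀ w : D, Cyc Q w → (w : Completion D) ∈ D'
  vac : (Q'.vac : Completion D) = om Q
  U : ∀ s L a v, 0 < s → IsLor L → (Q'.U s L a v : Completion D) = Ue Q s L a v
  fld : ∀ B, Q.fld B → Q'.bose (e B)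
  adj : ∀ B B', Q.fld B → Q.fld B' → IsAdj B B' → IsAdj (e B) (e B')
  agree : ∀ B f (v : D') (w : D), Q.fld B → IsTest f → Cyc Q w → (v : Completion D) = w →
    (e B f v : Completion D) = (B f w : D)

end Vale.Agent.P352NA
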