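import Vale.Agent.P352X.EB.Spec
import Vale.Agent.P352NA.Pub

/-!
# P352NA: vocabulary and rows of the net-only route
-/

set_option linter.all false

open MeasureTheory Filter Topology
open scoped SchwartzMap ComplexConjugate ContDiff

namespace Vale.Agent.P352X.EB.NA

open Vale.Agent.P352 Vale.Agent.P352.GF Vale.Agent.P352.BW Vale.Agent.P352.H246
open Vale.Agent.P352.H496 Vale.Agent.P352.H755 Vale.Agent.P352.H15
open Vale.Agent.P352.SubConf (IsAdj)
open Vale.Agent.P352NA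
open UniformSpace (Completion)
open Complex (I)
open Bornology (IsBounded)

noncomputable section

/-- `rh ^ e f ∘ cph t`, zero beyond the singular plane; real exponent -/
def pe (e t : ℝ) (f : Fn) : Fn := fun z =>
  if 0 < rh t z then ((rh t z ^ e : ℝ) : ℂ) * f (cph t z) else 0

/-- `F` is a polynomial of degree at most `N` on the set `S` -/
def Pol {H : Type*} [AddCommGroup H] [Module ℂ H] (N : ℕ) (S : Set ℝ) (F : ℝ → H) : Prop :=
  ∃ p : ℕ → H, ∀ t ∈ S, F t = ∑ j ∈ Finset.range (N + 1), ((t : ℂ) ^ j) • p j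

/-- the nodes -/
def nd (T : ℝ) (k : ℕ) : ℝ := T / ((k : ℝ) + 1)

/-- row RIG: rigidity of families of spaces of test functions -/
def RIG (ι : Type*) : Prop := ∀ (O : ι → Set V) (G : ι → Set V → Submodule ℂ Fn),
  (∀ i, IsOpen (O i) ∧ O i ⊆ W0) →
  (∀ i C u, C ⊆ W1 → In (O i) u → box u ∈ G i C) →
  (∀ i, ∃ (K : Set V) (N : ℕ), IsCompact K ∧ K ⊆ W0 ∧ ∀ (L : Ix → V) (B C : Set V) (T : ℝ),
    IsLor L → IsCompact B → B ⊆ O i → 0 < T → (∀ z ∈ K ∪ B, sim 1 L 0 z ∈ Rc T 0) →
    (∀ z ∈ C, sim 1 L 0 z ∈ W1) → ∃ j : ℕ → ι,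
      (∀ k ≤ N, ∀ z ∈ B, cph (nd T k) (sim 1 L 0 z) ∈ O (j k)) ∧
      ∀ h, In (sim 1 L 0 '' B) h → (∀ k ≤ N, pb 2 (-nd T k) h ∈ G (j k) W1) →
        (fun x => h (sim 1 L 0 x)) ∈ G i C) →
  (∀ i h, (∀ C, IsCompact C → C ⊆ W1 → h ∈ G i C) → h ∈ G i W1) →
  ∀ i h, In (O i) h → h ∈ G i W1

variable {D : Type*} [NormedAddCommGroup D] [InnerProductSpace ℂ D] (c : Ctx D)

/-- true letters: sums of fields smeared in `K`, applied to the vacuum, with their adjoints -/
inductive Tr (K : Set V) : Completion D → Completion D → Prop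
  | zero : Tr K 0 0
  | fld (B B' : Fld D) (f : Fn) : c.Q.fld B → c.Q.fld B' → IsAdj B B' → In K f →
      Tr K (B f c.Q.vac : D) (B' (bar f) c.Q.vac : D)
  | add (ξ ξ' η η' : Completion D) : Tr K ξ ξ' → Tr K η η' → Tr K (ξ + η) (ξ' + η')
  | smul (z : ℂ) (ξ ξ' : Completion D) : Tr K ξ ξ' → Tr K (z • ξ) (conj z • ξ')

/-- letters: the potential (`true`) or true letters (`false`) -/
def Ty (K : Set V) : Bool → Completion D × Completion D → Prop
  | true, p => ∃ h, In K h ∧ p = (c.l h, c.l (bar h))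
  | false, p => Tr c K p.1 p.2

/-- words of letters of given types -/
def Tw (K : Set V) (σ : List Bool) (w : List (Completion D × Completion D)) : Prop :=
  List.Forall₂ (Ty c K) σ w

/-- the adjoint word -/
def rv {α : Type*} (w : List (α × α)) : List (α × α) := (w.map Prod.swap).reverse

/-- the vector of a word -/
def wv (w : List (Completion D × Completion D)) : Completion D :=
  w.foldr (fun p v => ml c p.2 v) c.Om

/-- all splittings of the word are products -/
def Sp (K : Set V) (w : List (Completion D × Completion D)) : Prop :=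
  ∀ u v, w = u ++ v → Rl c K (wv c (rv u)) (wv c v) (wv c w)

/-- the vectors of words -/
def Wv : Set (Completion D) := {z | ∃ K σ w, IsCompact K ∧ Tw c K σ w ∧ z = wv c w}

/-- local vectors -/
def D1 (v : Completion D) : Prop := v ∈ Submodule.span ℂ (Wv c)

/-- row PF: polynomial families through the true letters -/
def PF : Prop := ∀ B B', c.Q.fld B → c.Q.fld B' → IsAdj B B' → ∃ N : ℕ, ∀ f,
  In {z | be z < 0} f → ∃ η η' : ℝ → Completion D, η 0 = (B f c.Q.vac : D) ∧
    η' 0 = (B' (bar f) c.Q.vac : D) ∧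
    (∀ t, 0 ≤ t → Reg (-t) f → Tr c (cph t '' tsupport f) (η t) (η' t)) ∧
    Pol N {t | 0 ≤ t ∧ Reg (-t) f} (fun t => c.SK t (η t)) ∧
    Pol N {t | 0 ≤ t ∧ Reg (-t) f} fun t => c.SK t (η' t)

/-- row COV: the similitudes map a field into the span of a finite family of fields -/
def COV : Prop := ∀ B B', c.Q.fld B → c.Q.fld B' → IsAdj B B' →
  ∃ (e n : ℕ) (C C' : Fin n → Fld D) (κ : Sg → Fin n → ℂ),
    (∀ i, c.Q.fld (C i) ∧ c.Q.fld (C' i) ∧ IsAdj (C i) (C' i)) ∧
    (∀ g : Sg, 1 ≤ g.s → g.L = GF.one → ∀ i, ‖κ g i‖ ≤ g.s ^ e) ∧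
    ∀ (g : Sg) f v, IsTest f →
      B f (c.Q.U g.s g.L g.a v) = ∑ i, κ g i • c.Q.U g.s g.L g.a (C i (g.pull f) v) ∧
      B' f (c.Q.U g.s g.L g.a v) = ∑ i, conj (κ g i) • c.Q.U g.s g.L g.a (C' i (g.pull f) v)

/-- row DENS: the algebras of compact sets generate the algebra of the wedge -/
def DENS : Prop := ∀ ξ η ζ : Completion D, (∀ C, IsCompact C → C ⊆ W1 → ∀ Z ∈ c.N C,
  inner ℂ (Z c.Om) ζ = inner ℂ (Z ξ) η) → Prd (M0 c) c.Om ξ η ζ

/-- row COM: the fields commute at space-like separation -/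
def COM : Prop := ∀ B C f g v, c.Q.fld B → c.Q.fld C → In Set.univ f → In Set.univ g → Sep f g →
  B f (C g v) = C g (B f v)

/-- the tools of the net-only route -/
structure N0 : Prop extends E0 c where
  ee : EE c
  mf : MfAll c.Q
  fsl : FSL c.Q

/-- row WRD: words split -/
def WRD : Prop := ∀ K σ w, IsCompact K → Tw c K σ w → Sp c K w

/-- row LOC: space-like separated letters commute -/
def LOC : Prop := ∀ K K' σ σ' p p', IsCompact K → IsCompact K' →
  (∀ x ∈ K, ∀ y ∈ K', GF.mdot (x - y) (x - y) < 0) → Ty c K σ p → Ty c K' σ' p' →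
  wv c [p, p'] = wv c [p', p]

end

end Vale.Agent.P352X.EB.NA
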