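import Vale.Agent.P352NA.WRD

/-!
# P352NA, row LOC: space-like separated letters commute
-/

set_option linter.all false

open Filter Topology Set
open scoped ComplexConjugate

namespace Vale.Agent.P352X.EB.NA

open Vale.Agent.P352 Vale.Agent.P352.GF Vale.Agent.P352.BW Vale.Agent.P352.H246
open Vale.Agent.P352.H496 Vale.Agent.P352.H755 Vale.Agent.P352.H15
open Vale.Agent.P352.SubConf (IsAdj)
open UniformSpace (Completion)
open Bornology (IsBounded)

noncomputable section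

universe u

variable {D : Type u} [NormedAddCommGroup D] [InnerProductSpace ℂ D] {c : Ctx D}
  {K K' : Set V} {f g : Fn} {ξ ξ' η η' : Completion D} {p q : Completion D × Completion D}
  {e e' : Bool}

theorem mu_cph {s : ℝ} {x y : V} (hx : 0 < rh s x) (hy : 0 < rh s y) :
    mu (cph s x - cph s y) = mu (x - y) / (rh s x * rh s y) := by
  have a := hx.ne'
  have b := hy.ne'
  simp only [mu_eq, al_sub, be_sub, tx_sub, Ch0.al_cph, Ch0.be_cph, Ch0.tx_cph, d2, Pi.sub_apply,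
    Pi.smul_apply, smul_eq_mul]
  field_simp
  simp only [rh]
  ring

theorem mu_act (g : Sg) (x y : V) : mu (g.act x - g.act y) = g.s ^ 2 * mu (x - y) := by
  rw [g.act_eq, g.act_eq, add_sub_add_right_eq_sub, ← smul_sub, mu_smul,
    ← (conf_lor g.hL).lin.map_sub, mu_lor _ g.hL]

/-- space-like separation -/
def Sl (K K' : Set V) : Prop := ∀ x ∈ K, ∀ y ∈ K', mu (x - y) < 0

theorem Sl.symm (h : Sl K K') : Sl K' K := fun x hx y hy => by
  rw [← mu_neg, neg_sub]
  exact h y hy x hx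

theorem adj_lin {X X' : D → D} (h : ∀ v w, inner ℂ (X v) w = inner ℂ v (X' w)) :
    (∀ v w, X (v + w) = X v + X w) ∧ ∀ (z : ℂ) v, X (z • v) = z • X v :=
  ⟨fun v w => ext_inner_right ℂ fun y => by simp only [h, inner_add_left],
    fun z v => ext_inner_right ℂ fun y => by simp only [h, inner_smul_left]⟩

theorem Tr.op (t : E0 c) (h : Tr c K ξ ξ') : ∃ X X' : D → D, T.Afs (c.N K) X X' ∧
    ξ = (X c.Q.vac : D) ∧ ξ' = (X' c.Q.vac : D) ∧ ∀ Y : D → D, (∀ v w, Y (v + w) = Y v + Y w) →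
      (∀ (z : ℂ) v, Y (z • v) = z • Y v) →
      (∀ B f v, c.Q.fld B → In K f → Y (B f v) = B f (Y v)) → ∀ v, Y (X v) = X (Y v) := by
  induction h with
  | zero => exact ⟨_, _, afs_smul 0 afs_id, by simp [Completion.coe_zero],
      by simp [Completion.coe_zero], fun Y _ b _ v => b 0 v⟩
  | fld B B' f a b d hf => exact ⟨_, _, t.grp.affa _ _ _ (.fld B B' f _ _ a b d hf .one), rfl, rfl,
      fun Y _ _ k v => k B f v a hf⟩
  | add _ _ _ _ _ _ a b =>
    obtain ⟨X, X', a1, rfl, rfl, a2⟩ := a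
    obtain ⟨Y, Y', b1, rfl, rfl, b2⟩ := b
    exact ⟨_, _, afs_add a1 b1, (Completion.coe_add _ _).symm, (Completion.coe_add _ _).symm,
      fun Z z1 z2 z3 v => by rw [z1, a2 Z z1 z2 z3, b2 Z z1 z2 z3]⟩
  | smul z _ _ _ a =>
    obtain ⟨X, X', a1, rfl, rfl, a2⟩ := a
    exact ⟨_, _, afs_smul z a1, (Completion.coe_smul _ _).symm, (Completion.coe_smul _ _).symm,
      fun Z z1 z2 z3 v => by rw [z2, a2 Z z1 z2 z3]⟩

/-- letters of the types `e` and `e'` commute -/
def Lc (c : Ctx D) (e e' : Bool) : Prop := ∀ K K' p q, IsCompact K → IsCompact K' → Sl K K' →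
  Ty c K e p → Ty c K' e' q → wv c [p, q] = wv c [q, p]

theorem Lc.symm (h : Lc c e e') : Lc c e' e := fun K K' p q a b s x y =>
  (h K' K q p b a s.symm y x).symm

theorem lc_ff (t : E0 c) : Lc c false false := by
  rintro K K' ⟨ξ, ξ'⟩ ⟨η, η'⟩ a b s x y
  obtain ⟨X, X', a1, rfl, rfl, a2⟩ := Tr.op t x
  obtain ⟨Y, Y', b1, rfl, rfl, b2⟩ := Tr.op t y
  have k : ∀ z ∈ [(X, X'), (Y, Y')], T.Afs (c.N (K ∪ K')) z.1 z.2 := by
    simpa using ⟨afs_mono a1 (c.N_mono subset_union_left), afs_mono b1 (c.N_mono subset_union_right)⟩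
  have e1 := wv_vw t (a.union b).isBounded k
  have e2 := wv_vw t (a.union b).isBounded (xs := [(Y, Y'), (X, X')]) fun z hz =>
    k z (by simpa [or_comm] using hz)
  refine e1.trans (Eq.trans (congrArg _ ?_) e2.symm)
  refine b2 X (adj_lin a1.1).1 (adj_lin a1.1).2 (fun B f v hB hf => ?_) _
  obtain ⟨B', -, d⟩ := c.Q.adj B hB
  have l := adj_lin fun v w => d f v w hf.1
  exact (a2 (B f) l.1 l.2 (fun C g v hC hg => com_row t B C f g v hB hC (Ap.in_univ' hf)
    (Ap.in_univ' hg) fun y hy x hx => s.symm y (hf.2.2 hy) x (hg.2.2 hx)) v).symm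

/-- a letter in the standard wedge -/
structure Cy (c : Ctx D) (e : Bool) where
  K : Set V
  p : Completion D × Completion D
  cpt : IsCompact K
  sub : K ⊆ W0
  ty : Ty c K e p

theorem ok2 (hK : IsCompact K) (h : Ty c K e p) (h' : Ty c K e' q) : Ok c 2 2 K [p, q] :=
  ⟨hK, ⟨[e, e'], List.count_le_length, .cons h (.cons h' .nil)⟩, le_rfl⟩

section

variable (t : E0 c) (hc : COV c) (S : Sh c 2 2)
include t hc S

/-- the good test functions -/
def Cy.G (y : Cy c e) : Submodule ℂ Fn :=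
  have k : ∀ f g (z : ℂ), In univ f → In univ g →
      wv c [lt c fun x => f x + z * g x, y.p] = wv c [lt c f, y.p] + z • wv c [lt c g, y.p] ∧
      wv c [y.p, lt c fun x => f x + z * g x] = wv c [y.p, lt c f] + z • wv c [y.p, lt c g] :=
    fun f g z hf hg => by
      have hK : IsCompact (y.K ∪ (tsupport f ∪ tsupport g)) := y.cpt.union (hf.2.1.union hg.2.1)
      have a : In (y.K ∪ (tsupport f ∪ tsupport g)) f :=
        ⟨hf.1, hf.2.1, subset_union_left.trans subset_union_right⟩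
      have b : In (y.K ∪ (tsupport f ∪ tsupport g)) g :=
        ⟨hg.1, hg.2.1, subset_union_right.trans subset_union_right⟩
      have d := y.ty.mono (K' := y.K ∪ (tsupport f ∪ tsupport g)) subset_union_left
      have l : ∀ {k}, In (y.K ∪ (tsupport f ∪ tsupport g)) k →
          Ty c (y.K ∪ (tsupport f ∪ tsupport g)) true (lt c k) := fun a => ⟨_, a, rfl⟩
      exact ⟨S.lin t hc (u := []) z (ok2 hK (l a) d) (ok2 hK (l b) d)
          (ok2 hK (l (Ap.in_lin z a b)) d) (lt_lin z hf.1 hg.1).2,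
        S.lin t hc (u := [y.p]) z (ok2 hK d (l a)) (ok2 hK d (l b))
          (ok2 hK d (l (Ap.in_lin z a b))) (lt_lin z hf.1 hg.1).2⟩
  sbm (fun f => In univ f ∧ wv c [lt c f, y.p] = wv c [y.p, lt c f])
    ⟨Ap.in_zero, by
      have := k _ _ 1 Ap.in_zero Ap.in_zero
      simp only [mul_zero, add_zero, one_smul, left_eq_add] at this
      rw [this.1, this.2]⟩
    fun f g z a b => ⟨Ap.in_lin z a.1 b.1, by
      rw [(k f g z a.1 b.1).1, (k f g z a.1 b.1).2, a.2, b.2]⟩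

theorem lc_std (pf : PF c) (rig : RIG (Cy c e)) (H : Lc c false e) (y : Cy c e)
    (hf : In (W0 ∩ {x | ∀ z ∈ y.K, mu (x - z) < 0}) f) :
    wv c [lt c f, y.p] = wv c [y.p, lt c f] := by
  refine (rig (fun y => W0 ∩ {x | ∀ z ∈ y.K, mu (x - z) < 0}) (fun y _ => y.G t hc S)
    (fun y => ⟨(wdg_open _ _ _).inter (isOpen_iff_mem_nhds.2 fun x hx =>
      y.cpt.eventually_forall_of_forall_eventually fun z hz => ContinuousAt.eventually_lt
        (f := fun q : V × V => mu (q.1 - q.2)) (by fun_prop) continuousAt_const (hx z hz)),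
      inter_subset_left⟩)
    (fun y C u _ hu => ⟨Ap.in_univ' (Ap.in_box hu), H (tsupport u) y.K _ _ hu.2.1 y.cpt
      (fun x hx => (hu.2.2 hx).2) (tr_box ⟨hu.1, hu.2.1, subset_rfl⟩) y.ty⟩) (fun y => ?_)
    (fun y h H => H ∅ isCompact_empty (empty_subset _)) y f hf).2
  obtain ⟨N, a⟩ := fa_ty t hc pf y.ty
  refine ⟨y.K, N * 2, y.cpt, y.sub, fun L B C T hL hB hB' hT hK _ => ?_⟩
  let g : Sg := ⟨1, L, 0, one_pos, hL⟩
  obtain ⟨q, b1, b2⟩ := a g T fun z hz => hK z (.inl hz)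
  have r := fun k z hz => rc_le (nd_mem hT k) (hK z hz)
  refine ⟨fun k => ⟨cph (nd T k) '' (g.act '' y.K), q (nd T k), cph_cpt (y.cpt.image g.cont) (by
      rintro _ ⟨z, hz, rfl⟩
      exact rc_rh (r k z (.inl hz))), by
      rintro _ ⟨_, ⟨z, hz, rfl⟩, rfl⟩
      exact rc_cph (r k z (.inl hz)), b1.ty _ (nd_mem hT k)⟩,
    fun k _ z hz => ⟨rc_cph (r k z (.inr hz)), ?_⟩, fun h hh H => ?_⟩
  · rintro _ ⟨_, ⟨x, hx, rfl⟩, rfl⟩
    have a1 := rc_rh (r k z (.inr hz))
    have a2 := rc_rh (r k x (.inl hx))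
    refine (mu_cph a1 a2).trans_lt (div_neg_of_neg_of_pos ?_ (mul_pos a1 a2))
    exact (mu_act g z x).trans_lt (mul_neg_of_pos_of_neg (pow_pos g.hs 2) ((hB' hz).2 x hx))
  have k1 : IsCompact (g.act '' (y.K ∪ B)) := (y.cpt.union hB).image g.cont
  have k2 : ∀ z ∈ g.act '' (y.K ∪ B), z ∈ Rc T 0 := by
    rintro _ ⟨z, hz, rfl⟩
    exact hK z hz
  have hh' : In (g.act '' (y.K ∪ B)) h := Ap.in_mono hh (image_mono subset_union_right)
  have b3 := (fa_l t hh' k2).mono subset_rfl (Nat.zero_le N)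
  replace b1 := b1.mono (image_mono (subset_union_left (t := B))) le_rfl
  have F1 : Fw c 2 2 _ T N [lf c h, q] :=
    ⟨k1, k2, ⟨[true, e], List.count_le_length, .cons b3 (.cons b1 .nil)⟩, le_rfl⟩
  have F2 : Fw c 2 2 _ T N [q, lf c h] :=
    ⟨k1, k2, ⟨[e, true], List.count_le_length, .cons b1 (.cons b3 .nil)⟩, le_rfl⟩
  have P1 := (F1.pol t hc S hT).lag hT subset_rfl (left_mem_Icc.2 hT.le)
  have P2 := (F2.pol t hc S hT).lag hT subset_rfl (left_mem_Icc.2 hT.le)
  have hi : In (y.K ∪ B) fun x => h (sim 1 L 0 x) := Ap.in_mono (Ap.in_sim one_pos hL 0 hh) (by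
    rintro y ⟨y', a, b⟩
    have := congrArg g.inv.act b
    rw [show sim 1 L 0 = g.act from rfl, g.inv_act, g.inv_act] at this
    exact .inr (this ▸ a))
  have d := y.ty.mono (K' := y.K ∪ B) subset_union_left
  have l : Ty c (y.K ∪ B) true (lt c fun x => h (sim 1 L 0 x)) := ⟨_, hi, rfl⟩
  refine ⟨Ap.in_univ' hi, Mu1.inj t.sg g ?_⟩
  rw [← S.wv_U t hc (ok2 (y.cpt.union hB) l d), ← S.wv_U t hc (ok2 (y.cpt.union hB) d l)]
  simp only [List.map_cons, List.map_nil, c.ugK.zero, b2, lf_zero, List.length_cons,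
    List.length_nil] at P1 P2
  simp only [mp, List.map_cons, List.map_nil]
  rw [show (g.U c (lt c fun x => h (sim 1 L 0 x)).1, g.U c (lt c fun x => h (sim 1 L 0 x)).2) = _ from
    lt_U t hL hh.1]
  refine P1.trans (Eq.trans (Finset.sum_congr rfl fun k hk => ?_) P2.symm)
  exact congrArg (fun v => _ • c.SK _ v) (H k (Nat.lt_succ_iff.1 (Finset.mem_range.1 hk))).2

theorem lc_t (pf : PF c) (rig : RIG (Cy c e)) (H : Lc c false e) : Lc c true e := by
  intro K K' p q a b s x y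
  obtain ⟨g, hg⟩ := t.sg.ex _ (a.union b).isBounded
  have x' := x.mono (K' := K ∪ K') subset_union_left
  have y' := y.mono (K' := K ∪ K') subset_union_right
  refine Mu1.inj t.sg g ?_
  rw [← S.wv_U t hc (ok2 (a.union b) x' y'), ← S.wv_U t hc (ok2 (a.union b) y' x')]
  obtain ⟨f, hf, e1⟩ := x.U t hc g
  simp only [mp, List.map_cons, List.map_nil, e1]
  refine lc_std t hc S pf rig H ⟨_, _, b.image g.cont, by
    rintro _ ⟨z, hz, rfl⟩
    exact hg z (.inr hz), y.U t hc g⟩ (Ap.in_mono hf ?_)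
  rintro _ ⟨z, hz, rfl⟩
  refine ⟨hg z (.inl hz), ?_⟩
  rintro _ ⟨w, hw, rfl⟩
  exact (mu_act g z w).trans_lt (mul_neg_of_pos_of_neg (pow_pos g.hs 2) (s z hz w hw))

end

theorem loc_row (t : E0 c) (hc : COV c) (pf : PF c) (rig : ∀ ι : Type u, RIG ι) : LOC c := by
  have S := sh_all t hc pf (fun _ _ => rig _) 2 2
  have a := lc_t t hc S pf (rig _) (lc_ff t)
  have b := lc_t t hc S pf (rig _) a.symm
  intro K K' e e' p q hK hK' s
  cases e <;> cases e'
  exacts [lc_ff t K K' p q hK hK' s, a.symm K K' p q hK hK' s, a K K' p q hK hK' s,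
    b K K' p q hK hK' s]

end

end Vale.Agent.P352X.EB.NA
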