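import Vale.Agent.P352NA.Defs
import Vale.Agent.P352X.EG.LIFT
import Vale.Agent.P352X.EB.MOM
import Vale.Agent.P352X.EB.MU2
import Vale.Agent.P352X.Api1C
import Vale.Agent.P352X.Api2b

/-!
# P352NA, rows DENS and COM
-/

set_option linter.all false

open Filter Topology
open scoped ComplexConjugate

namespace Vale.Agent.P352X.EB.NA

open Vale.Agent.P352 Vale.Agent.P352.GF Vale.Agent.P352.BW Vale.Agent.P352.H246
open Vale.Agent.P352.H496 Vale.Agent.P352.H755 Vale.Agent.P352.H15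
open Vale.Agent.P352.SubConf (IsAdj)
open UniformSpace (Completion)

noncomputable section

variable {D : Type*} [NormedAddCommGroup D] [InnerProductSpace ℂ D] {c : Ctx D}

theorem al_mono {Q : Theory D} {O O' : Set V} (e : O ⊆ O') {X X' : D → D} (h : Al Q O X X') :
    Al Q O' X X' := by
  induction h with
  | one => exact .one
  | add X X' Y Y' _ _ a b => exact .add _ _ _ _ a b
  | smul z X X' _ a => exact .smul _ _ _ a
  | fld A B g X X' h1 h2 h3 h4 _ a => exact .fld _ _ _ _ _ h1 h2 h3 (Ap.in_mono h4 e) a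

theorem al_cpt {Q : Theory D} {O : Set V} {X X' : D → D} (h : Al Q O X X') :
    ∃ C, IsCompact C ∧ C ⊆ O ∧ Al Q C X X' := by
  induction h with
  | one => exact ⟨∅, isCompact_empty, Set.empty_subset _, .one⟩
  | add X X' Y Y' _ _ a b =>
    obtain ⟨C, a1, a2, a3⟩ := a
    obtain ⟨C', b1, b2, b3⟩ := b
    exact ⟨C ∪ C', a1.union b1, Set.union_subset a2 b2,
      .add _ _ _ _ (al_mono Set.subset_union_left a3) (al_mono Set.subset_union_right b3)⟩
  | smul z X X' _ a => exact a.imp fun C a => ⟨a.1, a.2.1, .smul _ _ _ a.2.2⟩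
  | fld A B g X X' h1 h2 h3 h4 _ a =>
    obtain ⟨C, a1, a2, a3⟩ := a
    exact ⟨C ∪ tsupport g, a1.union h4.2.1, Set.union_subset a2 h4.2.2, .fld _ _ _ _ _ h1 h2 h3
      ⟨h4.1, h4.2.1, Set.subset_union_right⟩ (al_mono Set.subset_union_left a3)⟩

theorem ab_pos : 0 < GF.mdot va vb := by rw [md_ab]; exact one_pos

theorem dual0 (j : JC c) : (M0 c).commutant = c.N W1 := j.dual va vb 0 null_va null_vb ab_pos

/-- a compact set with interior in the opposite wedge -/
theorem ex_cpt : ∃ C : Set V, IsCompact C ∧ C ⊆ W1 ∧ (interior C).Nonempty := by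
  obtain ⟨x, hx⟩ := wdg_nonempty null_vb null_va (by rw [H496.gm_comm]; exact ab_pos) 0
  obtain ⟨C, c1, c2, c3⟩ := exists_compact_subset (wdg_open vb va 0) hx
  exact ⟨C, c1, c3, x, c2⟩

theorem dens_row (t : T1 c) : DENS c := by
  intro ξ η ζ h Z hZ
  let 𝒜 : Set (Completion D →L[ℂ] Completion D) := {Y | ∃ C, IsCompact C ∧ C ⊆ W1 ∧ Y ∈ c.N C}
  have sub : ∀ Y ∈ 𝒜, Y ∈ (M0 c).commutant := fun Y ⟨C, _, a, b⟩ => by
    rw [dual0 t.jc]
    exact c.N_mono a _ b
  have hs : ∀ Y ∈ 𝒜, star Y ∈ 𝒜 := fun Y ⟨C, a, b, d⟩ => ⟨C, a, b, star_mem d⟩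
  have hd : Dense {z | ∃ Y ∈ 𝒜, Y c.Om = z} := by
    obtain ⟨C, c1, c2, c3⟩ := ex_cpt
    refine (t.grp.rs _ isOpen_interior c3).mono ?_
    rintro z ⟨X, hX, e⟩
    exact ⟨X, ⟨C, c1, c2, c.N_mono interior_subset _ hX⟩, e⟩
  have := EG.LiftAux.dns2 𝒜 ⟨∅, isCompact_empty, Set.empty_subset _, one_mem _⟩
    (fun Y ⟨C, a, b, d⟩ Y' ⟨C', a', b', d'⟩ => ⟨C ∪ C', a.union a', Set.union_subset b b',
      mul_mem (c.N_mono Set.subset_union_left _ d) (c.N_mono Set.subset_union_right _ d')⟩) hs Z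
    (fun x hx => ?_) c.Om ξ ζ η fun Y ⟨C, a, b, d⟩ => by
      rw [← inner_conj_symm, h C a b Y d, inner_conj_symm]
  · rw [← inner_conj_symm, this, inner_conj_symm]
  have p : Pr (M0 c) c.Om (x c.Om) (star x c.Om) :=
    t.jc.core va vb 0 _ _ null_va null_vb ab_pos fun X X' hX => by
      obtain ⟨C, c1, c2, c3⟩ := al_cpt hX
      rw [star_inner]
      exact (t.grp.affa _ _ _ c3).2 x
        (VonNeumannAlgebra.mem_commutant_iff.2 fun Y hY => hx Y ⟨C, c1, c2, hY⟩) _ _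
  have k : ∀ A ∈ 𝒜, ∀ B ∈ 𝒜, inner ℂ (A c.Om) ((x * Z) (B c.Om)) =
      inner ℂ (A c.Om) ((Z * x) (B c.Om)) := fun A hA B hB => by
    have e := pr_iff.1 p (star A * Z * B) (mul_mem (mul_mem (sub _ (hs A hA)) hZ) (sub B hB))
    have e1 : B (x c.Om) = x (B c.Om) := DFunLike.congr_fun (hx B hB) _
    have e2 : ∀ v, star A (x v) = x (star A v) := DFunLike.congr_fun (hx _ (hs A hA))
    rw [star_inner] at e
    simp only [ContinuousLinearMap.mul_apply, e1, ← e2, inner_star] at e ⊢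
    exact e.symm
  refine DFunLike.coe_injective (Continuous.ext_on hd (x * Z).continuous (Z * x).continuous ?_)
  rintro _ ⟨B, hB, rfl⟩
  exact hd.eq_of_inner_right ℂ (by rintro _ ⟨A, hA, rfl⟩; exact k A hA B hB)

theorem afs_comm {M M' : VonNeumannAlgebra (Completion D)} {X X' Y Y' : D → D}
    (h : T.Afs M X X') (h' : T.Afs M' Y Y') (e : ∀ Z ∈ M', Z ∈ M.commutant) (v : D) :
    X (Y v) = Y (X v) := by
  refine ext_inner_left ℂ fun w => ?_
  have a : inner ℂ w (X (Y v)) = inner ℂ (X' w) (Y v) := by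
    rw [← inner_conj_symm, h.1, inner_conj_symm]
  rw [a, ← sub_eq_zero, ← norm_le_zero_iff]
  refine le_of_forall_pos_le_add fun ε hε => ?_
  set C := ‖X' w‖ * ‖Y (Y' (Y v))‖ + ‖w‖ * ‖Y (Y' (Y (X v)))‖ with hC
  have C0 : 0 ≤ C := by positivity
  obtain ⟨s, s0, hs⟩ : ∃ s : ℝ, 0 < s ∧ s * s * C ≤ ε := by
    refine ⟨min 1 (ε / (C + 1)), lt_min one_pos (by positivity), ?_⟩
    have a1 := min_le_left 1 (ε / (C + 1))
    have a2 := min_le_right 1 (ε / (C + 1))
    have a3 : 0 < min 1 (ε / (C + 1)) := lt_min one_pos (by positivity)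
    rw [le_div_iff₀ (by positivity)] at a2
    nlinarith [mul_nonneg a3.le C0]
  obtain ⟨Z, hZ, P, -, P', -, -, -, -, c1, -, z1, -, p1, -⟩ :=
    Mom.blocks M' (fun v : D => (v : Completion D)) Y Y' h'.2 s s0
  have k := h.2 Z (e Z hZ) v w
  have b : ∀ u : D, ‖P (u : Completion D)‖ ≤ s * s * ‖Y (Y' u)‖ := fun u => by
    rw [p1, norm_smul, ← Complex.ofReal_mul, Complex.norm_real,
      Real.norm_of_nonneg (mul_self_nonneg s)]
    exact mul_le_mul_of_nonneg_left ((c1 _).trans (Completion.norm_coe _).le) (mul_self_nonneg s)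
  simp only [z1, ContinuousLinearMap.sub_apply, ContinuousLinearMap.one_apply, inner_sub_right,
    Completion.inner_coe] at k
  rw [sub_eq_sub_iff_sub_eq_sub.1 k, zero_add]
  refine (norm_sub_le _ _).trans (le_trans ?_ hs)
  have n1 := (norm_inner_le_norm (𝕜 := ℂ) ((X' w : D) : Completion D) _).trans
    (mul_le_mul_of_nonneg_left (b (Y v)) (norm_nonneg _))
  have n2 := (norm_inner_le_norm (𝕜 := ℂ) (w : Completion D) _).trans
    (mul_le_mul_of_nonneg_left (b (Y (X v))) (norm_nonneg _))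
  rw [Completion.norm_coe] at n1 n2
  rw [hC]
  nlinarith

theorem com_row (t : E0 c) : COM c := by
  intro B C f g v hB hC hf hg hs
  obtain ⟨B', hB', aB⟩ := c.Q.adj B hB
  obtain ⟨C', hC', aC⟩ := c.Q.adj C hC
  have l1 : ∀ A, c.Q.fld A → ∀ f g v, In Set.univ f → In Set.univ g →
      A (fun x => f x + g x) v = A f v + A g v := fun A hA f g v hf hg => by
    simpa using c.Q.lin A f g 1 v hA hf.1 hg.1
  have l2 : ∀ A, c.Q.fld A → ∀ f v w, In Set.univ f → A f (v + w) = A f v + A f w :=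
    fun A hA f v w hf => by
      obtain ⟨A', -, a⟩ := c.Q.adj A hA
      exact ext_inner_right ℂ fun y => by simp only [a _ _ _ hf.1, inner_add_left]
  refine Completion.coe_injective D (sub_eq_zero.1 (t.pou
    (fun f g => ((B f (C g v) : D) : Completion D) - (C g (B f v) : D)) ?_ ?_ ?_ f g hf hg hs))
  · intro f f' g hf hf' hg
    rw [l1 B hB f f' _ hf hf', l1 B hB f f' _ hf hf', l2 C hC _ _ _ hg, Completion.coe_add,
      Completion.coe_add]
    abel
  · intro f g g' hf hg hg'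
    rw [l1 C hC g g' _ hg hg', l1 C hC g g' _ hg hg', l2 B hB _ _ _ hf, Completion.coe_add,
      Completion.coe_add]
    abel
  · intro x y hxy
    obtain ⟨ε, hε, k, k', hk, hk', sub, -⟩ := t.geo.sep x y hxy
    refine ⟨ε, hε, fun f g hf hg => sub_eq_zero.2 (congrArg _ (afs_comm
      (t.grp.affa _ _ _ (Al.fld B B' f _ _ hB hB' aB hf Al.one))
      (t.grp.affa _ _ _ (Al.fld C C' g _ _ hC hC' aC hg Al.one)) (fun Z hZ => ?_) v))⟩
    exact MU2.Cm.comm t.sg (t.sg.com k Z (c.N_mono (fun z hz => sub (hk' z hz)) _ hZ)) hk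

end

end Vale.Agent.P352X.EB.NA
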