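import Vale.Agent.P352NA.Lt
import Vale.Agent.P352X.Api2b

/-!
# P352NA, row FS: the vector valued Wightman distributions and the new fields
-/

set_option linter.all false

open MeasureTheory Filter Topology
open scoped SchwartzMap ComplexConjugate ContDiff

namespace Vale.Agent.P352X.EB.NA

open Vale.Agent.P352 Vale.Agent.P352.GF Vale.Agent.P352.BW Vale.Agent.P352.H246
open UniformSpace (Completion)

variable {D : Type*} [NormedAddCommGroup D] [InnerProductSpace ℂ D] {c : Ctx D} {Λ : Type*}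
  {x : Lt c Λ} {a : Λ} {f g : Fn} {u : Wd Λ}

namespace Fs

lemma tw_nil : TW ([] : Wd Λ) := fun _ h => nomatch h

lemma tw_cons (hf : IsTest f) (hu : TW u) : TW ((a, f) :: u) := List.forall_mem_cons.2 ⟨hf, hu⟩

lemma in_cut (h : ANA) (R : ℕ) (hf : IsTest f) : In Set.univ (cutf R f) := Ap.in_univ' (h.inn R f hf)

lemma cw_cut (h : ANA) (R : ℕ) (hu : TW u) : CW (cutw R u) :=
  List.forall_mem_map.2 fun p hp => in_cut h R (hu p hp)

lemma d_ap (o : OPS x) {v : Completion D} (hv : D1 c v) : ∀ {u : Wd Λ}, CW u → D1 c (x.ap u v)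
  | [], _ => hv
  | _ :: _, h => o.mem _ _ _ (List.forall_mem_cons.1 h).1 (d_ap o hv (List.forall_mem_cons.1 h).2)

lemma d_cut (t : E1 x) (R : ℕ) (hu : TW u) : D1 c (x.ap (cutw R u) c.Om) :=
  d_ap t.ops t.ops.d_vac (cw_cut t.ana R hu)

lemma bar_cut (R : ℕ) (f : Fn) : bar (cutf R f) = cutf R (bar f) := Ap.bar_rmul _ f

lemma ex_evw : ∀ {u : Wd Λ}, TW u → ∃ w, evw w = u
  | [], _ => ⟨[], rfl⟩
  | p :: _, h => by
    obtain ⟨g, hg⟩ := (List.forall_mem_cons.1 h).1
    obtain ⟨w, rfl⟩ := ex_evw (List.forall_mem_cons.1 h).2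
    exact ⟨(p.1, g) :: w, by simp [evw, hg]⟩

lemma lim1 (e : EXT x) (a : Λ) (hf : IsTest f) (hu : TW u) : Tendsto
    (fun R => x.op a (cutf R f) (x.ap (cutw R u) c.Om)) atTop (𝓝 (x.W ((a, f) :: u))) :=
  e.lim _ (tw_cons hf hu)

lemma test_lin (z : ℂ) (hf : IsTest f) (hg : IsTest g) : IsTest fun y => f y + z * g y := by
  obtain ⟨f, rfl⟩ := hf
  obtain ⟨g, rfl⟩ := hg
  exact ⟨f + z • g, rfl⟩

end Fs

open Fs

theorem wp_row (t : E1 x) (e : EXT x) : WP x := by
  have o := t.ops
  have lin : ∀ a (f g : Fn) (z : ℂ) u, IsTest f → IsTest g → TW u →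
      x.W ((a, fun y => f y + z * g y) :: u) = x.W ((a, f) :: u) + z • x.W ((a, g) :: u) :=
    fun a f g z u hf hg hu => tendsto_nhds_unique (lim1 e a (Fs.test_lin z hf hg) hu)
      (((lim1 e a hf hu).add ((lim1 e a hg hu).const_smul z)).congr fun R => by
        rw [← o.lin _ _ _ _ _ (in_cut t.ana R hf) (in_cut t.ana R hg) (d_cut t R hu)]
        congr 1
        funext y
        simp only [cutf]
        ring)
  refine ⟨e.cw [] (fun _ h => nomatch h), lin, fun a u hu => ?_, fun a f u w hf hu hw => ?_,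
    fun a b f g u hf hg s hu => ?_, fun a B B' f u w i hf hu hw => ?_⟩
  · obtain ⟨w, rfl⟩ := ex_evw hu
    obtain ⟨m, C, -, h⟩ := e.bd (a :: w.map Prod.fst)
    refine continuous_iff_continuousAt.2 fun g0 => tendsto_iff_norm_sub_tendsto_zero.2
      (squeeze_zero (fun _ => norm_nonneg _) (g := fun g => C * (ST.sn V ℂ m (g - g0) * snw m w))
        (fun g => ?_) ?_)
    · have := lin a (ev g0) (ev (g - g0)) 1 _ ⟨_, rfl⟩ ⟨_, rfl⟩ hu
      rw [show (fun y => ev g0 y + 1 * ev (g - g0) y) = ev g from funext fun y => by simp [ev],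
        one_smul] at this
      rw [this, add_sub_cancel_left, ← Api4.sn_eq]
      exact h ((a, g - g0) :: w) rfl
    · exact Continuous.tendsto' (continuous_const.mul (((ST.continuous_sn m).comp
        (continuous_id.sub continuous_const)).mul continuous_const)) _ _ (by simp)
  · exact tendsto_nhds_unique ((lim1 e a hf hu).inner (e.lim w hw))
      (((e.lim u hu).inner (lim1 e _ (Ap.test_bar hf) hw)).congr fun R => by
        rw [o.herm _ _ _ _ (in_cut t.ana R hf) (d_cut t R hu) (d_cut t R hw), bar_cut])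
  · exact tendsto_nhds_unique (lim1 e a hf (tw_cons hg hu))
      ((lim1 e b hg (tw_cons hf hu)).congr fun R => (o.loc a b _ _ _ (in_cut t.ana R hf)
        (in_cut t.ana R hg) (fun p hp q hq => s p ((t.ana.inn R f hf).2.2 hp).1 q
          ((t.ana.inn R g hg).2.2 hq).1) (d_cut t R hu)).symm)
  · obtain ⟨G, hG⟩ := Ap.test_bar hf
    have l := ((Completion.continuous_coe D).tendsto _).comp
      (((c.Q.cont B' w i.2.1).tendsto G).comp (t.ana.lim G))
    rw [hG] at l
    refine tendsto_nhds_unique ((lim1 e a hf hu).inner tendsto_const_nhds)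
      (((e.lim u hu).inner l).congr fun R => ?_)
    rw [o.aff _ _ _ _ _ _ i (in_cut t.ana R hf) (d_cut t R hu) hw, bar_cut]
    exact congrArg (fun F => inner ℂ _ ((B' F w : D) : Completion D))
      (Api4.coe_sch (Ap.in_dc (in_cut t.ana R (Ap.test_bar hf))))

namespace Fs

lemma W_mem (hu : TW u) : x.W u ∈ x.Dn := Submodule.subset_span ⟨u, hu, rfl⟩

lemma ind {P : x.Dn → Prop} (h0 : P 0) (h1 : ∀ v w, P v → P w → P (v + w))
    (h2 : ∀ (z : ℂ) v, P v → P (z • v)) (h3 : ∀ u (hu : TW u), P ⟨x.W u, W_mem hu⟩) (v : x.Dn) :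
    P v :=
  Submodule.span_induction (p := fun v hv => P ⟨v, hv⟩) (by rintro _ ⟨u, hu, rfl⟩; exact h3 u hu)
    h0 (fun _ _ _ _ => h1 _ _) (fun z _ _ => h2 z _) v.2

lemma ext {v w : x.Dn} (h : ∀ u, TW u → inner ℂ (v : Completion D) (x.W u) =
    inner ℂ (w : Completion D) (x.W u)) : v = w :=
  ext_inner_right ℂ (ind (by simp) (fun _ _ p q => by rw [inner_add_right, inner_add_right, p, q])
    (fun z y p => (inner_smul_right v y z).trans (p ▸ (inner_smul_right w y z).symm)) h)

lemma spec (w : WP x) (a : Λ) (hf : IsTest f) (v : x.Dn) : ∀ u, TW u →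
    inner ℂ (x.o a f v : Completion D) (x.W u) =
      inner ℂ (v : Completion D) (x.W ((x.dag a, bar f) :: u)) := by
  have h : IsTest f ∧ ∃ z : x.Dn, ∀ u, TW u → inner ℂ (z : Completion D) (x.W u) =
      inner ℂ (v : Completion D) (x.W ((x.dag a, bar f) :: u)) := by
    refine ⟨hf, ind (P := fun v => ∃ z : x.Dn, ∀ u, TW u → inner ℂ (z : Completion D) (x.W u) =
      inner ℂ (v : Completion D) (x.W ((x.dag a, bar f) :: u))) ⟨0, by simp⟩ ?_ ?_
        (fun u hu => ⟨⟨_, W_mem (tw_cons hf hu)⟩, fun u' => w.herm a f u u' hf hu⟩) v⟩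
    · rintro v v' ⟨z, p⟩ ⟨z', q⟩
      exact ⟨z + z', fun u hu => by simp only [Submodule.coe_add, inner_add_left, p u hu, q u hu]⟩
    · rintro s v ⟨z, p⟩
      exact ⟨s • z, fun u hu => by simp only [Submodule.coe_smul, inner_smul_left, p u hu]⟩
  rw [Lt.o, dif_pos h]
  exact h.2.choose_spec

lemma o_not (hf : ¬ IsTest f) (v : x.Dn) : x.o a f v = 0 := dif_neg fun h => hf h.1

lemma oW (w : WP x) (a : Λ) (hf : IsTest f) (hu : TW u) :
    x.o a f ⟨_, W_mem hu⟩ = ⟨_, W_mem (tw_cons (a := a) hf hu)⟩ :=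
  ext fun u' h => (spec w a hf _ u' h).trans (w.herm a f u u' hf hu h).symm

end Fs

theorem fs_row (w : WP x) : FS x := by
  have add : ∀ a f v v', x.o a f (v + v') = x.o a f v + x.o a f v' := fun a f v v' => by
    by_cases hf : IsTest f
    · exact ext fun u hu => by simp only [Submodule.coe_add, inner_add_left, spec w a hf _ u hu]
    · simp [o_not hf]
  have smul : ∀ a f (z : ℂ) v, x.o a f (z • v) = z • x.o a f v := fun a f z v => by
    by_cases hf : IsTest f
    · exact ext fun u hu => by simp only [Submodule.coe_smul, inner_smul_left, spec w a hf _ u hu]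
    · simp [o_not hf]
  have zero : ∀ a f, x.o a f 0 = 0 := fun a f => by simpa using smul a f 0 0
  refine ⟨w.nil ▸ W_mem tw_nil, fun a f u v hf hu e => ?_, add, smul,
    fun a f g z v hf hg => ext fun u hu => ?_, fun a => Fs.ind ?_ ?_ ?_ fun u hu => ?_,
    fun a f v v' hf => ?_, fun a b f g v hf hg s => ?_, fun a B B' f v y i hf hy => ?_⟩
  · rw [show v = ⟨_, W_mem hu⟩ from Subtype.ext e, oW w a hf hu]
  · rw [spec w a (Fs.test_lin z hf hg) _ u hu, show bar (fun y => f y + z * g y) =
      fun y => bar f y + conj z * bar g y from funext fun y => by simp [bar],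
      w.lin _ _ _ _ _ (Ap.test_bar hf) (Ap.test_bar hg) hu]
    simp only [Submodule.coe_add, Submodule.coe_smul, inner_add_left, inner_add_right,
      inner_smul_left, inner_smul_right, spec w a hf _ u hu, spec w a hg _ u hu]
  · simpa only [zero] using continuous_const
  · exact fun v v' p q => by simpa only [add] using p.fun_add q
  · exact fun z v p => by simpa only [smul] using p.fun_const_smul z
  · simpa only [oW w a ⟨_, rfl⟩ hu] using (w.cont a u hu).subtype_mk _
  · induction v' using Fs.ind with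
    | h0 => simp [zero]
    | h1 _ _ p q => rw [add, inner_add_right, inner_add_right, p, q]
    | h2 z y p =>
      rw [smul]
      exact (inner_smul_right _ y z).trans (p ▸ (inner_smul_right v _ z).symm)
    | h3 u hu =>
      rw [oW w _ (Ap.test_bar hf) hu]
      exact spec w a hf v u hu
  · induction v using Fs.ind with
    | h0 => simp [zero]
    | h1 _ _ p q => simp only [add, p, q]
    | h2 _ _ p => simp only [smul, p]
    | h3 u hu =>
      rw [oW w _ hf hu, oW w _ hg hu, oW w _ hf (tw_cons hg hu), oW w _ hg (tw_cons hf hu)]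
      exact Subtype.ext (w.loc a b f g u hf hg s hu)
  · induction v using Fs.ind with
    | h0 => simp [zero]
    | h1 _ _ p q => simp only [add, Submodule.coe_add, inner_add_left, p, q]
    | h2 _ _ p => simp only [smul, Submodule.coe_smul, inner_smul_left, p]
    | h3 u hu =>
      rw [oW w _ hf hu]
      exact w.aff a B B' f u y i hf hu hy

end Vale.Agent.P352X.EB.NA
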