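import Vale.Agent.P352NA.OPS
import Vale.Agent.P352NA.EXT
import Vale.Agent.P352NA.FS
import Vale.Agent.P352NA.REC
import Vale.Agent.P352X.EH.Pub

/-!
# P352NA, row AFW: the new fields are affiliated to the algebras of the wedges
-/

set_option linter.all false

open MeasureTheory Filter Topology Set
open scoped SchwartzMap ComplexConjugate

namespace Vale.Agent.P352X.EB.NA

open Vale.Agent.P352 Vale.Agent.P352.GF Vale.Agent.P352.BW Vale.Agent.P352.H246
open Vale.Agent.P352.H496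
open Vale.Agent.P352.SubConf (IsAdj)
open UniformSpace (Completion)

noncomputable section

variable {D : Type*} [NormedAddCommGroup D] [InnerProductSpace ℂ D] {c : Ctx D} {Λ : Type*}
  {a b y : V} {x : Lt c Λ} {O : Set V}

namespace Afw

theorem wg (s : SG c) (ha : IsNull a) (hb : IsNull b) (h : GF.mdot a b = 1) (y : V) :
    ∃ g : Sg, g.act ⁻¹' W0 = Wdg a b y := by
  obtain ⟨L, hL, e⟩ := JCa.trans ha hb (h ▸ one_pos)
  let k : Sg := ⟨1, L, y, one_pos, hL⟩
  refine ⟨k.inv, (e y).1 ▸ Set.ext fun x => ⟨fun hx => ⟨_, hx, s.act_inv k x⟩, ?_⟩⟩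
  rintro ⟨z, hz, rfl⟩
  show k.inv.act (k.act z) ∈ W0
  rwa [s.inv_act]

theorem cm (s : SG c) {g : Sg} {Z : Completion D →L[ℂ] Completion D}
    (h : Z ∈ (c.N (g.act ⁻¹' W0)).commutant) : MU2.Cm c g Z := by
  have := conj_comm (U := star (g.U c)) (Unitary.star_mem (s.uni g))
    (fun X hX => by rw [star_star]; exact s.back g X hX) h
  rwa [star_star] at this

theorem big (ha : IsNull a) (hb : IsNull b) (h : GF.mdot a b = 1) (y : V) :
    Big (MW (Wdg a b y)) := by
  have e : Wdg a b y = {z : V | GF.mdot b y < GF.mdot b z ∧ GF.mdot a z < GF.mdot a y} := by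
    ext z
    show (GF.mdot a (z - y) < 0 ∧ 0 < GF.mdot b (z - y)) ↔ _
    rw [H755.md_sub, H755.md_sub, sub_neg, sub_pos]
    exact and_comm
  rw [e]
  refine big_two (c := a - b) one_pos one_pos ?_ ?_
  · rw [H755.md_sub, H755.md_comm, h, hb.1, sub_zero]
  · rw [H755.md_sub, h, ha.1, zero_sub]

theorem riesz {D' : Submodule ℂ (Completion D)} (p : Completion D) : ∃ q : Completion D',
    ∀ v : D', inner ℂ q (v : Completion D') = inner ℂ p (v : Completion D) := by
  let j : Completion D' →L[ℂ] Completion D := D'.subtypeL.extend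
    (Completion.toComplL : D' →L[ℂ] Completion D')
  refine ⟨ContinuousLinearMap.adjoint (𝕜 := ℂ) j p, fun v => ?_⟩
  rw [ContinuousLinearMap.adjoint_inner_left]
  exact congrArg _ (ContinuousLinearMap.extend_eq _ Completion.denseRange_coe
    (Completion.isUniformInducing_coe _) v)

/-- the theorem of Reeh and Schlieder in graph norm -/
theorem rs {D' : Submodule ℂ (Completion D)} {Q : Theory D'} {B : Fld D'} (hB : Q.fld B) {f : Fn}
    (hf : GF.IsTest f) (hS : Big (MW O)) {p q : Completion D}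
    (h : ∀ v, P352.PW Q (MW O) v → inner ℂ p (v : Completion D) = inner ℂ q (B f v : Completion D))
    {v : D'} (hv : P352.PW Q univ v) :
    inner ℂ p (v : Completion D) = inner ℂ q (B f v : Completion D) := by
  obtain ⟨g, rfl⟩ := exists_fl hf
  obtain ⟨p', hp⟩ := riesz (D' := D') p
  obtain ⟨q', hq⟩ := riesz (D' := D') q
  obtain ⟨N, hN⟩ := hol_fld hB g q' v
  obtain ⟨U, u1, u2, u3⟩ := hS.open_set hv
  have := ((hol_vec (Q := Q) p' v).add ⟨N, hN.smul (-1)⟩).unique u1 u2 (fun a ha => by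
    rw [hp, hq, h _ (u3 a ha)]
    ring) 0
  rw [hp, hq, U1_zero hv] at this
  linear_combination this

/-- the letters of a word -/
def lw (x : Lt c Λ) (u : Wd Λ) : List (Completion D × Completion D) :=
  u.map fun p => (x.φ p.1 p.2, x.φ (x.dag p.1) (bar p.2))

theorem ap_eq : ∀ u : Wd Λ, x.ap u c.Om = wv c (lw x u)
  | [] => rfl
  | p :: u => congrArg (ml c _) (ap_eq u)

theorem tw : ∀ u : Wd Λ, (∀ p ∈ u, In O p.2) → ∃ K σ, IsCompact K ∧ K ⊆ O ∧ Tw c K σ (lw x u)
  | [], _ => ⟨∅, [], isCompact_empty, empty_subset _, .nil⟩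
  | p :: u, h => by
    obtain ⟨h1, h2⟩ := List.forall_mem_cons.1 h
    obtain ⟨K, σ, k1, k2, k3⟩ := tw u h2
    exact ⟨_, _, h1.2.1.isCompact.union k1, union_subset h1.2.2 k2, .cons
      ((Op.ty x p.1 (Ap.in_univ' h1)).mono subset_union_left) (k3.mono subset_union_right)⟩

theorem cw {u : Wd Λ} (h : ∀ p ∈ u, In O p.2) : CW u := fun p hp => Ap.in_univ' (h p hp)

/-- vectors generated in the region `O` -/
def Ge (x : Lt c Λ) (O : Set V) : Submodule ℂ x.Dn :=
  Submodule.span ℂ {v | ∃ u : Wd Λ, (∀ p ∈ u, In O p.2) ∧ (v : Completion D) = x.W u}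

theorem Ge.ind {P : x.Dn → Prop} (h0 : P 0) (h1 : ∀ v w, P v → P w → P (v + w))
    (h2 : ∀ (z : ℂ) v, P v → P (z • v))
    (h3 : ∀ (v : x.Dn) (u : Wd Λ), (∀ p ∈ u, In O p.2) → (v : Completion D) = x.W u → P v)
    {v : x.Dn} (hv : v ∈ Ge x O) : P v :=
  Submodule.span_induction (p := fun v _ => P v) (by rintro v ⟨u, a, b⟩; exact h3 v u a b) h0
    (fun _ _ _ _ => h1 _ _) (fun z _ _ => h2 z _) hv

theorem o_zero (F : FS x) (l : Λ) (f : Fn) : x.o l f 0 = 0 := by simpa using F.smul l f 0 0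

theorem ge_pw (w : WP x) (F : FS x) {Q : Theory x.Dn} (b1 : (Q.vac : Completion D) = c.Om)
    (b3 : ∀ B, Q.fld B ↔ x.Fs (fun _ => True) B) {v : x.Dn} (hv : P352.PW Q (MW O) v) : v ∈ Ge x O := by
  induction hv with
  | vac => exact Submodule.subset_span ⟨[], by simp, b1.trans w.nil.symm⟩
  | add _ _ p q => exact add_mem p q
  | smul z _ p => exact Submodule.smul_mem _ z p
  | @fld B g v hB hg _ p =>
    obtain ⟨n, l, -, rfl⟩ := (b3 B).1 hB
    refine Submodule.sum_mem _ fun i _ => Ge.ind (P := fun v => x.o (l i) (fl g) v ∈ Ge x O)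
      ?_ (fun _ _ p q => ?_) (fun z _ p => ?_) (fun v u a e => ?_) p
    · rw [o_zero F]
      exact zero_mem _
    · rw [F.add]
      exact add_mem p q
    · rw [F.smul]
      exact Submodule.smul_mem _ z p
    · exact Submodule.subset_span ⟨(l i, fl g) :: u, List.forall_mem_cons.2 ⟨In_fl.2 hg, a⟩,
        F.oW _ _ u v (In_fl.2 hg).1 (CVr.tw_of (cw a)) e⟩

theorem pw_cw (w : WP x) (F : FS x) {Q : Theory x.Dn} (b1 : (Q.vac : Completion D) = c.Om)
    (b3 : ∀ B, Q.fld B ↔ x.Fs (fun _ => True) B) :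
    ∀ (u : Wd Λ) (v : x.Dn), CW u → (v : Completion D) = x.W u → P352.PW Q univ v
  | [], v, _, e => by
    rw [show v = Q.vac from Subtype.ext (e.trans (w.nil.trans b1.symm))]
    exact .vac
  | (l, f) :: u, v, h, e => by
    obtain ⟨h1, h2⟩ := CVr.cw_cons.1 h
    obtain ⟨g, rfl, hg⟩ := exists_In h1
    have k := CVr.tw_of h2
    rw [show v = x.o l (fl g) ⟨_, Fs.W_mem k⟩ from
      Subtype.ext (e.trans (F.oW _ _ u _ h1.1 k rfl).symm)]
    exact .fld ((b3 _).2 (RECr.fs_one trivial)) hg (pw_cw w F b1 b3 u _ h2 rfl)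

theorem word (t : E2 c) (e : EXT x) (ha : IsNull a) (hb : IsNull b) (h : GF.mdot a b = 1) (l : Λ)
    {f : Fn} (hf : In (Wdg a b y) f) {Y : Completion D →L[ℂ] Completion D}
    (hY : Y ∈ (c.N (Wdg a b y)).commutant) {u u' : Wd Λ} (hu : ∀ p ∈ u, In (Wdg a b y) p.2)
    (hu' : ∀ p ∈ u', In (Wdg a b y) p.2) :
    inner ℂ (x.W ((x.dag l, bar f) :: u')) (Y (x.W u)) =
      inner ℂ (x.W u') (Y (x.W ((l, f) :: u))) := by
  have h1 : ∀ p ∈ (l, f) :: u, In (Wdg a b y) p.2 := List.forall_mem_cons.2 ⟨hf, hu⟩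
  have h2 : ∀ p ∈ (x.dag l, bar f) :: u', In (Wdg a b y) p.2 := List.forall_mem_cons.2 ⟨hf.bar, hu'⟩
  rw [e.cw _ (cw h1), e.cw _ (cw h2), e.cw _ (cw hu), e.cw _ (cw hu'), ap_eq, ap_eq, ap_eq, ap_eq]
  obtain ⟨K, σ, k1, k2, k3⟩ := tw (x := x) _ h1
  obtain ⟨K', σ', l1, l2, l3⟩ := tw (x := x) _ hu'
  obtain ⟨g, eg⟩ := wg t.sg ha hb h y
  have ad : g.Adm (K' ∪ K) := fun z hz => by
    have := union_subset l2 k2 hz
    rwa [← eg] at this
  have s := t.wrd _ _ _ (l1.union k1)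
    ((l3.mono subset_union_left).rev.append (k3.mono subset_union_right))
  have z := cm t.sg (eg ▸ star_mem hY)
  have s1 := MU2.prd t.sg (s _ _ rfl g ad) z
  have s2 := MU2.prd t.sg (s (rv (lw x ((x.dag l, bar f) :: u'))) (lw x u) (by
    simp [lw, rv_cons, x.dag2, Ap.bar_bar]) g ad) z
  rw [rv_rv, star_inner, star_inner] at s1 s2
  exact s2.symm.trans s1

theorem letter (t : E2 c) (e : EXT x) (w : WP x) (F : FS x) {Q : Theory x.Dn}
    (b1 : (Q.vac : Completion D) = c.Om) (b3 : ∀ B, Q.fld B ↔ x.Fs (fun _ => True) B)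
    (ha : IsNull a) (hb : IsNull b) (h : GF.mdot a b = 1) (l : Λ)
    {f : Fn} (hf : In (Wdg a b y) f) {Y : Completion D →L[ℂ] Completion D}
    (hY : Y ∈ (c.N (Wdg a b y)).commutant) (v v' : x.Dn) :
    inner ℂ (x.o (x.dag l) (bar f) v' : Completion D) (Y v) =
      inner ℂ (v' : Completion D) (Y (x.o l f v)) := by
  have tb := hf.bar.1
  have fo := fun l => (b3 _).2 (RECr.fs_one (a := l) trivial)
  have s1 : ∀ v ∈ Ge x (Wdg a b y), ∀ v' ∈ Ge x (Wdg a b y),
      inner ℂ (x.o (x.dag l) (bar f) v' : Completion D) (Y v) =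
        inner ℂ (v' : Completion D) (Y (x.o l f v)) := fun v hv v' hv' => by
    refine Ge.ind (P := fun v => inner ℂ (x.o (x.dag l) (bar f) v' : Completion D) (Y v) =
      inner ℂ (v' : Completion D) (Y (x.o l f v))) (by simp [o_zero F])
      (fun _ _ p q => by rw [F.add]; simp only [Submodule.coe_add, map_add, inner_add_right, p, q])
      (fun _ _ p => by rw [F.smul]; simp only [Submodule.coe_smul, map_smul, inner_smul_right, p])
      (fun v u a1 a2 => ?_) hv
    refine Ge.ind (P := fun v' => inner ℂ (x.o (x.dag l) (bar f) v' : Completion D) (Y v) =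
      inner ℂ (v' : Completion D) (Y (x.o l f v))) (by simp [o_zero F])
      (fun _ _ p q => by rw [F.add]; simp only [Submodule.coe_add, inner_add_left, p, q])
      (fun _ _ p => by rw [F.smul]; simp only [Submodule.coe_smul, inner_smul_left, p])
      (fun v' u' a3 a4 => ?_) hv'
    rw [F.oW _ _ u' _ tb (CVr.tw_of (cw a3)) a4, F.oW _ _ u _ hf.1 (CVr.tw_of (cw a1)) a2, a2, a4]
    exact word t e ha hb h l hf hY a1 a3
  have s2 : ∀ v v', P352.PW Q univ v → P352.PW Q univ v' →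
      inner ℂ (x.o (x.dag l) (bar f) v' : Completion D) (Y v) =
        inner ℂ (v' : Completion D) (Y (x.o l f v)) := fun v v' hv hv' => by
    rw [← inner_conj_symm, ← rs (fo _) tb (big ha hb h y) (p := Y (x.o l f v)) (fun v' hv' => ?_)
      hv', inner_conj_symm]
    rw [← inner_conj_symm, ← star_inner, ← rs (fo l) hf.1 (big ha hb h y)
      (p := star Y (x.o (x.dag l) (bar f) v')) (fun v hv => ?_) hv, star_inner, inner_conj_symm]
    rw [star_inner, star_inner]
    exact s1 v (ge_pw w F b1 b3 hv) v' (ge_pw w F b1 b3 hv')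
  induction v using Fs.ind with
  | h0 => simp [o_zero F]
  | h1 v v' p q => rw [F.add]; simp only [Submodule.coe_add, map_add, inner_add_right, p, q]
  | h2 z v p => rw [F.smul]; simp only [Submodule.coe_smul, map_smul, inner_smul_right, p]
  | h3 u hu =>
  induction v' using Fs.ind with
  | h0 => simp [o_zero F]
  | h1 v v' p q => rw [F.add]; simp only [Submodule.coe_add, inner_add_left, p, q]
  | h2 z v p => rw [F.smul]; simp only [Submodule.coe_smul, inner_smul_left, p]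
  | h3 u' hu' =>
  rw [F.oW _ _ u' _ tb hu' rfl, F.oW _ _ u _ hf.1 hu rfl]
  have yc := fun z => Y.continuous.tendsto z
  refine tendsto_nhds_unique ((Fs.lim1 e _ tb hu').inner ((yc _).comp (e.lim u hu)))
    (((e.lim u' hu').inner ((yc _).comp (Fs.lim1 e _ hf.1 hu))).congr' ?_)
  obtain ⟨r, hr⟩ := hf.2.1.isCompact.isBounded.subset_closedBall 0
  obtain ⟨r', hr'⟩ := hf.bar.2.1.isCompact.isBounded.subset_closedBall 0
  filter_upwards [eventually_ge_atTop ⌈r⌉₊, eventually_ge_atTop ⌈r'⌉₊] with R hR hR'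
  have c1 := Fs.cw_cut t.ana R hu
  have c2 := Fs.cw_cut t.ana R hu'
  have := s2 _ _ (pw_cw w F b1 b3 _ ⟨_, Fs.W_mem (CVr.tw_of c1)⟩ c1 rfl)
    (pw_cw w F b1 b3 _ ⟨_, Fs.W_mem (CVr.tw_of c2)⟩ c2 rfl)
  rw [F.oW _ _ _ _ tb (CVr.tw_of c2) rfl, F.oW _ _ _ _ hf.1 (CVr.tw_of c1) rfl,
    e.cw _ (CVr.cw_cons.2 ⟨Ap.in_univ' hf.bar, c2⟩), e.cw _ (CVr.cw_cons.2 ⟨Ap.in_univ' hf, c1⟩)]
    at this
  simp only [e.cw _ c1, e.cw _ c2] at this
  rw [Function.comp_apply, Function.comp_apply,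
    t.ana.eq R f (hr.trans (Metric.closedBall_subset_closedBall (by
      linarith [Nat.ceil_le.1 hR]))),
    t.ana.eq R _ (hr'.trans (Metric.closedBall_subset_closedBall (by
      linarith [Nat.ceil_le.1 hR'])))]
  exact this.symm

end Afw

/-- row AFW -/
theorem afw_row (t : E2 c) (e : EXT x) (w : WP x) (F : FS x) {Q : Theory x.Dn}
    (b1 : (Q.vac : Completion D) = c.Om) (b3 : ∀ B, Q.fld B ↔ x.Fs (fun _ => True) B) :
    AfW c.N Q (↑) := by
  intro a b y B B' f ha hb h hB d hf Y hY v v'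
  obtain ⟨n, l, -, rfl⟩ := (b3 B).1 hB
  have d' : IsAdj (fun f v => ∑ i, x.o (l i) f v) fun f v => ∑ i, x.o (x.dag (l i)) f v :=
    fun g p q hg => by simp only [sum_inner, inner_sum, F.herm _ g p q hg]
  rw [Let.adj_uniq d d' hf.bar.1]
  simp only [Submodule.coe_sum, map_sum, sum_inner, inner_sum,
    Afw.letter t e w F b1 b3 ha hb h _ hf hY]

end

end Vale.Agent.P352X.EB.NA
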