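import Vale.Agent.P352NA.Defs
import Mathlib.LinearAlgebra.Lagrange

/-!
# P352NA: polynomial families
-/

set_option linter.all false

open Finset Polynomial
open scoped ComplexConjugate

namespace Vale.Agent.P352X.EB.NA

noncomputable section

theorem nd_pos {T : ℝ} (hT : 0 < T) (k : ℕ) : 0 < nd T k := by unfold nd; positivity

theorem nd_le {T : ℝ} (hT : 0 < T) (k : ℕ) : nd T k ≤ T :=
  div_le_self hT.le (by linarith [(Nat.cast_nonneg k : (0 : ℝ) ≤ k)])

theorem nd_mem {T : ℝ} (hT : 0 < T) (k : ℕ) : nd T k ∈ Set.Icc 0 T := ⟨(nd_pos hT k).le, nd_le hT k⟩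

theorem nd_inj {T : ℝ} (hT : 0 < T) : Function.Injective (nd T) := fun a b h => by
  unfold nd at h
  rw [div_eq_div_iff (by positivity) (by positivity)] at h
  have := mul_left_cancel₀ hT.ne' h
  exact_mod_cast (add_right_cancel this).symm

/-- the Lagrange basis -/
def lb (T : ℝ) (N k : ℕ) : ℂ[X] := Lagrange.basis (range (N + 1)) (fun k => (nd T k : ℂ)) k

theorem lb_pow {T : ℝ} (hT : 0 < T) {N j : ℕ} (hj : j < N + 1) (s : ℂ) :
    s ^ j = ∑ k ∈ range (N + 1), (lb T N k).eval s * (nd T k : ℂ) ^ j := by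
  have hi : Set.InjOn (fun k => (nd T k : ℂ)) (range (N + 1) : Finset ℕ) := fun a _ b _ h =>
    nd_inj hT (Complex.ofReal_injective h)
  have := Lagrange.eq_interpolate hi (f := (X : ℂ[X]) ^ j) (by
    rw [degree_X_pow, card_range]
    exact_mod_cast hj)
  have h2 := congrArg (eval s) this
  rw [eval_pow, eval_X, Lagrange.interpolate_apply, eval_finset_sum] at h2
  rw [h2]
  refine sum_congr rfl fun k _ => ?_
  rw [eval_mul, eval_C, eval_pow, eval_X, mul_comm]
  rfl

theorem lb_deg {T : ℝ} (hT : 0 < T) {N k : ℕ} (hk : k ∈ range (N + 1)) :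
    (lb T N k).natDegree < N + 1 := by
  have hi : Set.InjOn (fun k => (nd T k : ℂ)) (range (N + 1) : Finset ℕ) := fun a _ b _ h =>
    nd_inj hT (Complex.ofReal_injective h)
  rw [lb, Lagrange.natDegree_basis hi hk, card_range]
  omega

namespace Pol

variable {H H' : Type*} [AddCommGroup H] [Module ℂ H] [AddCommGroup H'] [Module ℂ H']
  {N M : ℕ} {S S' : Set ℝ} {F G : ℝ → H}

theorem lag {T : ℝ} (hT : 0 < T) (h : Pol N S F) (hS : Set.Icc 0 T ⊆ S) {s : ℝ} (hs : s ∈ S) :
    F s = ∑ k ∈ range (N + 1), (lb T N k).eval (s : ℂ) • F (nd T k) := by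
  obtain ⟨p, hp⟩ := h
  simp only [hp s hs, fun k => hp _ (hS (nd_mem hT k)), smul_sum, smul_smul]
  rw [sum_comm]
  refine sum_congr rfl fun j hj => ?_
  rw [← sum_smul, ← lb_pow hT (mem_range.1 hj)]

theorem of_lag {T : ℝ} (hT : 0 < T) (v : ℕ → H)
    (h : ∀ s ∈ S, F s = ∑ k ∈ range (N + 1), (lb T N k).eval (s : ℂ) • v k) : Pol N S F := by
  refine ⟨fun j => ∑ k ∈ range (N + 1), (lb T N k).coeff j • v k, fun s hs => ?_⟩
  simp only [h s hs, smul_sum, smul_smul]
  rw [sum_comm]
  refine sum_congr rfl fun k hk => ?_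
  rw [eval_eq_sum_range' (lb_deg hT hk), sum_smul]
  exact sum_congr rfl fun j _ => by rw [mul_comm]

theorem congr (h : Pol N S F) (e : ∀ t ∈ S, G t = F t) : Pol N S G :=
  h.imp fun p hp t ht => (e t ht).trans (hp t ht)

theorem sub (h : Pol N S F) (e : S' ⊆ S) : Pol N S' F := h.imp fun p hp t ht => hp t (e ht)

theorem const (v : H) : Pol 0 S fun _ => v := ⟨fun _ => v, fun t _ => by simp⟩

theorem mono (h : Pol N S F) (e : N ≤ M) : Pol M S F := by
  obtain ⟨p, hp⟩ := h
  refine ⟨fun j => if j < N + 1 then p j else 0, fun t ht => ?_⟩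
  rw [hp t ht, ← sum_subset (range_subset_range.2 (Nat.add_le_add_right e 1)) fun j _ hj => by
    simp only [if_neg fun a => hj (mem_range.2 a), smul_zero]]
  exact sum_congr rfl fun j hj => by simp only [if_pos (mem_range.1 hj)]

theorem add (h : Pol N S F) (h' : Pol N S G) : Pol N S fun t => F t + G t := by
  obtain ⟨p, hp⟩ := h
  obtain ⟨q, hq⟩ := h'
  exact ⟨fun j => p j + q j, fun t ht => by simp only [hp t ht, hq t ht, smul_add, sum_add_distrib]⟩

theorem map (h : Pol N S F) (A : H →ₗ[ℂ] H') : Pol N S fun t => A (F t) := by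
  obtain ⟨p, hp⟩ := h
  exact ⟨fun j => A (p j), fun t ht => by simp only [hp t ht, map_sum, map_smul]⟩

theorem smul (h : Pol N S F) (z : ℂ) : Pol N S fun t => z • F t := h.map (z • LinearMap.id)

theorem zero : Pol N S fun _ => (0 : H) := (const 0).mono (Nat.zero_le _)

theorem sum {ι : Type*} (s : Finset ι) {F : ι → ℝ → H} (h : ∀ i ∈ s, Pol N S (F i)) :
    Pol N S fun t => ∑ i ∈ s, F i t := by
  classical
  induction s using Finset.induction_on with
  | empty => simpa using zero
  | insert i s hi ih =>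
    simp only [sum_insert hi]
    exact (h i (mem_insert_self _ _)).add (ih fun j hj => h j (mem_insert_of_mem hj))

theorem pow {j : ℕ} (hj : j ≤ N) (v : H) : Pol N S fun t => ((t : ℂ) ^ j) • v := by
  refine mono ⟨fun i => if i = j then v else 0, fun t _ => ?_⟩ hj
  simp

end Pol

section hilbert

variable {H : Type*} [NormedAddCommGroup H] [InnerProductSpace ℂ H] {N M : ℕ} {S : Set ℝ}
  {F G : ℝ → H}

theorem Pol.inn (h : Pol N S F) (h' : Pol M S G) :
    Pol (N + M) S fun t => inner ℂ (F t) (G t) := by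
  obtain ⟨p, hp⟩ := h
  obtain ⟨q, hq⟩ := h'
  refine (Pol.sum (range (N + 1)) fun i hi => Pol.sum (range (M + 1)) fun j hj =>
    Pol.pow (j := i + j) (by rw [mem_range] at hi hj; omega) (inner ℂ (p i) (q j) : ℂ)).congr
    fun t ht => ?_
  simp only [hp t ht, hq t ht, sum_inner, inner_sum, inner_smul_left, inner_smul_right, map_pow,
    Complex.conj_ofReal, smul_eq_mul, pow_add, mul_sum]
  rw [sum_comm]
  exact sum_congr rfl fun i _ => sum_congr rfl fun j _ => by ring

theorem Pol.weak {T : ℝ} (hT : 0 < T) (hS : Set.Icc 0 T ⊆ S) {Z : Set H} (hZ : Dense Z)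
    (h : ∀ z ∈ Z, Pol N S fun t => inner ℂ z (F t)) : Pol N S F :=
  Pol.of_lag hT (fun k => F (nd T k)) fun s hs => hZ.eq_of_inner_right ℂ fun z hz => by
    rw [(h z hz).lag hT hS hs, inner_sum]
    exact sum_congr rfl fun k _ => by rw [inner_smul_right, smul_eq_mul]

end hilbert

end

end Vale.Agent.P352X.EB.NA
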