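import Vale.Agent.P352NA.WA
import Vale.Agent.P352NA.POL
import Vale.Agent.P352X.EB.FLOW
import Vale.Agent.P352X.R.KD.B

/-!
# P352NA: polynomial families of letters and words
-/

set_option linter.all false

open Filter Topology Set
open scoped ComplexConjugate

namespace Vale.Agent.P352X.EB.NA

open Vale.Agent.P352 Vale.Agent.P352.GF Vale.Agent.P352.BW Vale.Agent.P352.H246
open Vale.Agent.P352.H496 Vale.Agent.P352.H755 Vale.Agent.P352.H15
open Vale.Agent.P352.SubConf (IsAdj)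
open UniformSpace (Completion)
open Bornology (IsBounded)

noncomputable section

variable {D : Type*} [NormedAddCommGroup D] [InnerProductSpace ℂ D] {c : Ctx D}
  {K K' : Set V} {ξ ξ' η η' ζ ζ' : Completion D} {σ τ : List Bool} {n m N N' : ℕ} {T s : ℝ}
  {u v w : List (Completion D × Completion D)} {p : Completion D × Completion D} {z : V}

theorem rc_le (hs : s ∈ Icc 0 T) (h : z ∈ Rc T 0) : z ∈ Rc s 0 :=
  HM.H584.Rg_mono null_va null_vb md_ab hs.1 hs.2 h

theorem rc_rh (h : z ∈ Rc s 0) : 0 < rh s z := (G1.mem_Rc.1 h).2.1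

theorem rc_be (h : z ∈ Rc s 0) : be z < 0 := (G1.mem_Rc.1 h).1

theorem rc_cph (h : z ∈ Rc s 0) : cph s z ∈ W0 := by
  obtain ⟨a, b, d⟩ := G1.mem_Rc.1 h
  rw [Ap.mem_W, Ch0.be_cph, Ch0.al_cph, be_zero, al_zero]
  refine ⟨div_neg_of_neg_of_pos a b, sub_pos.2 ((div_lt_iff₀ b).2 ?_)⟩
  rw [mu_eq] at d
  linarith

theorem cph_cpt (hK : IsCompact K) (h : ∀ z ∈ K, 0 < rh s z) : IsCompact (cph s '' K) :=
  hK.image_of_continuousOn fun z hz =>
    ((Ch0.smooth_cph (q := (s, z)) (h z hz).ne').continuousAt.comp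
      (f := fun z : V => (s, z)) (by fun_prop)).continuousWithinAt

theorem sk_comm (G : GRP c) (hs : 0 ≤ s) {Z : Completion D →L[ℂ] Completion D}
    (hZ : Z ∈ (M0 c).commutant) : star (c.SK s) * Z * c.SK s ∈ (M0 c).commutant := by
  refine conj_comm (c.ugK.uni s) (fun X hX => ?_) hZ
  have := (G.geo 0 s X le_rfl hs).1 (by rwa [KDa.rc_zero])
  rw [sub_zero, zero_sub, ← c.ugK.star_eq] at this
  exact c.N_mono ((KDa.rc_sub G le_rfl hs 0).trans KDa.rc_zero.subset) _ this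

theorem prd_sk (G : GRP c) (hs : 0 ≤ s) (h : Prd (M0 c) c.Om ξ η ζ) :
    Prd (M0 c) c.Om (c.SK s ξ) (c.SK s η) (c.SK s ζ) := fun x hx => by
  simpa only [ContinuousLinearMap.mul_apply, star_inner, c.K_vac] using h _ (sk_comm G hs hx)

/-- polynomial families of letters -/
structure Fa (c : Ctx D) (K : Set V) (T : ℝ) (N : ℕ) (e : Bool)
    (q : ℝ → Completion D × Completion D) : Prop where
  ty : ∀ s ∈ Icc 0 T, Ty c (cph s '' K) e (q s)
  p1 : Pol N (Icc 0 T) fun s => c.SK s (q s).1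
  p2 : Pol N (Icc 0 T) fun s => c.SK s (q s).2

namespace Fa

variable {e : Bool} {q : ℝ → Completion D × Completion D}

theorem mono (h : Fa c K T N e q) (a : K ⊆ K') (b : N ≤ N') : Fa c K' T N' e q :=
  ⟨fun s hs => (h.ty s hs).mono (image_mono a), h.p1.mono b, h.p2.mono b⟩

theorem swap (h : Fa c K T N e q) : Fa c K T N e fun s => (q s).swap :=
  ⟨fun s hs => (h.ty s hs).swap, h.p2, h.p1⟩

end Fa

theorem bar_pb (j : ℕ) (s : ℝ) (f : Fn) : bar (pb j s f) = pb j s (bar f) :=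
  funext fun z => by simp only [bar, pb]; split_ifs <;> simp

theorem in_pb {f : Fn} (j : ℕ) (hf : In K f) (h : ∀ z ∈ K, 0 < rh s z) :
    In (cph s '' K) (pb j (-s) f) := by
  have := Ch0.inn (j := j) (t := -s) (Ap.in_dc hf) fun z hz => by
    rw [neg_neg]
    exact h z (hf.2.2 hz)
  rw [neg_neg] at this
  exact Ap.in_of this.1 (this.2.trans (image_mono hf.2.2))

theorem sk_l (t : E0 c) {f : Fn} (hf : In K f) (h : ∀ z ∈ K, z ∈ Rc s 0) (hs : 0 ≤ s) :
    c.SK s (c.l (pb 2 (-s) f)) = c.l f := by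
  rw [flow_row t _ s (Ap.in_mono (in_pb 2 hf fun z hz => rc_rh (h z hz)) (by
    rintro _ ⟨z, hz, rfl⟩
    exact (Ap.mem_W.1 (rc_cph (h z hz))).1.trans_eq be_zero)) hs]
  congr 1
  funext z
  by_cases hz : 0 < rh s z
  · rw [Ch0.pb_pb hz, add_neg_cancel, Ch0.pb_zero]
  · rw [pb, if_neg hz, image_eq_zero_of_notMem_tsupport fun a => hz (rc_rh (h z (hf.2.2 a)))]

/-- the family of a potential -/
def lf (c : Ctx D) (f : Fn) (s : ℝ) : Completion D × Completion D :=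
  (c.l (pb 2 (-s) f), c.l (bar (pb 2 (-s) f)))

theorem lf_zero (f : Fn) : lf c f 0 = (c.l f, c.l (bar f)) := by
  rw [lf, neg_zero, Ch0.pb_zero]

theorem fa_l (t : E0 c) {f : Fn} (hf : In K f) (h : ∀ z ∈ K, z ∈ Rc T 0) :
    Fa c K T 0 true (lf c f) :=
  ⟨fun s hs => ⟨_, in_pb 2 hf fun z hz => rc_rh (rc_le hs (h z hz)), rfl⟩,
    (Pol.const _).congr fun s hs => sk_l t hf (fun z hz => rc_le hs (h z hz)) hs.1,
    (Pol.const _).congr fun s hs => by
      rw [lf, bar_pb]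
      exact sk_l t hf.bar (fun z hz => rc_le hs (h z hz)) hs.1⟩

theorem fa_zero : Fa c K T N false fun _ => (0, 0) :=
  ⟨fun _ _ => Tr.zero, by simpa using Pol.zero, by simpa using Pol.zero⟩

theorem Fa.lin {q q' : ℝ → Completion D × Completion D} (h : Fa c K T N false q)
    (h' : Fa c K T N false q') (a : ℂ) :
    Fa c K T N false fun s => ((q s).1 + a • (q' s).1, (q s).2 + conj a • (q' s).2) :=
  ⟨fun s hs => Tr.add _ _ _ _ (h.ty s hs) (Tr.smul _ _ _ (h'.ty s hs)),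
    by simpa only [map_add, map_smul] using h.p1.add (h'.p1.smul a),
    by simpa only [map_add, map_smul] using h.p2.add (h'.p2.smul (conj a))⟩

theorem Fa.sum {ι : Type*} (S : Finset ι) (κ : ι → ℂ) {q : ι → ℝ → Completion D × Completion D}
    (h : ∀ i ∈ S, Fa c K T N false (q i)) :
    Fa c K T N false fun s => (∑ i ∈ S, κ i • (q i s).1, ∑ i ∈ S, conj (κ i) • (q i s).2) :=
  ⟨fun s hs => Tr.sum _ fun i hi => Tr.smul _ _ _ ((h i hi).ty s hs),
    by simpa only [map_sum, map_smul] using Pol.sum S fun i hi => (h i hi).p1.smul (κ i),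
    by simpa only [map_sum, map_smul] using Pol.sum S fun i hi => (h i hi).p2.smul (conj (κ i))⟩

section

variable (t : E0 c) (hc : COV c) (pf : PF c)
include t hc pf

theorem fa_tr (h : Tr c K ξ ξ') : ∃ N, ∀ (g : Sg) T, (∀ z ∈ K, g.act z ∈ Rc T 0) →
    ∃ q, Fa c (g.act '' K) T N false q ∧ q 0 = (g.U c ξ, g.U c ξ') := by
  induction h with
  | zero => exact ⟨0, fun g T _ => ⟨_, fa_zero, by simp⟩⟩
  | fld B B' f a b d hf =>
    obtain ⟨-, n, C, C', κ, h1, -, h2⟩ := hc B B' a b d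
    choose N hN using fun i => pf _ _ (h1 i).1 (h1 i).2.1 (h1 i).2.2
    refine ⟨Finset.univ.sup N, fun g T hT => ?_⟩
    have hi := in_inv t.sg g hf
    have hK : ∀ z ∈ g.act '' K, z ∈ Rc T 0 := by
      rintro _ ⟨z, hz, rfl⟩
      exact hT z hz
    choose η η' e1 e2 e3 e4 e5 using fun i => hN i _ (Ap.in_mono hi fun z hz => rc_be (hK z hz))
    have sb : Icc 0 T ⊆ {s | 0 ≤ s ∧ Reg (-s) (g.inv.pull f)} := fun s hs => ⟨hs.1, fun z hz => by
      rw [neg_neg]
      exact rc_rh (rc_le hs (hK z (hi.2.2 hz)))⟩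
    refine ⟨_, Fa.sum Finset.univ (κ g.inv) (q := fun i s => (η i s, η' i s)) fun i _ =>
      Fa.mono ⟨fun s hs => e3 i s hs.1 (sb hs).2, (e4 i).sub sb, (e5 i).sub sb⟩ hi.2.2
        (Finset.le_sup (Finset.mem_univ i)), ?_⟩
    rw [U_vac t g (h2 g.inv f _ hf.1).1, U_vac t g (h2 g.inv _ _ hf.bar.1).2]
    simp only [e1, e2]
    rfl
  | add _ _ _ _ _ _ a b =>
    obtain ⟨N, a⟩ := a
    obtain ⟨N', b⟩ := b
    refine ⟨max N N', fun g T hT => ?_⟩
    obtain ⟨q, a1, a2⟩ := a g T hT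
    obtain ⟨q', b1, b2⟩ := b g T hT
    exact ⟨_, (a1.mono subset_rfl (le_max_left _ _)).lin (b1.mono subset_rfl (le_max_right _ _)) 1,
      by simp [a2, b2]⟩
  | smul z _ _ _ a =>
    obtain ⟨N, a⟩ := a
    refine ⟨N, fun g T hT => ?_⟩
    obtain ⟨q, a1, a2⟩ := a g T hT
    exact ⟨_, fa_zero.lin a1 z, by simp [a2]⟩

theorem fa_ty {e : Bool} (h : Ty c K e p) : ∃ N, ∀ (g : Sg) T, (∀ z ∈ K, g.act z ∈ Rc T 0) →
    ∃ q, Fa c (g.act '' K) T N e q ∧ q 0 = (g.U c p.1, g.U c p.2) := by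
  cases e
  · exact fa_tr t hc pf h
  · refine ⟨0, fun g T hT => ?_⟩
    obtain ⟨f, a, b⟩ := h.U t hc g
    exact ⟨_, fa_l t a (by rintro _ ⟨z, hz, rfl⟩; exact hT z hz), (lf_zero f).trans b.symm⟩

theorem fa_tw (h : Tw c K σ w) : ∃ N, ∀ (g : Sg) T, (∀ z ∈ K, g.act z ∈ Rc T 0) →
    ∃ ws, List.Forall₂ (Fa c (g.act '' K) T N) σ ws ∧ ws.map (· 0) = mp c g w := by
  induction h with
  | nil => exact ⟨0, fun g T _ => ⟨[], .nil, rfl⟩⟩
  | cons a _ b =>
    obtain ⟨N, a⟩ := fa_ty t hc pf a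
    obtain ⟨N', b⟩ := b
    refine ⟨max N N', fun g T hT => ?_⟩
    obtain ⟨q, a1, a2⟩ := a g T hT
    obtain ⟨ws, b1, b2⟩ := b g T hT
    exact ⟨q :: ws, .cons (a1.mono subset_rfl (le_max_left _ _))
      (b1.imp fun _ _ k => k.mono subset_rfl (le_max_right _ _)), by
        rw [List.map_cons, a2, b2]; rfl⟩

end

/-- polynomial families of words -/
structure Fw (c : Ctx D) (n m : ℕ) (K : Set V) (T : ℝ) (N : ℕ)
    (ws : List (ℝ → Completion D × Completion D)) : Prop where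
  cpt : IsCompact K
  reg : ∀ z ∈ K, z ∈ Rc T 0
  ty : ∃ σ, σ.count true ≤ n ∧ List.Forall₂ (Fa c K T N) σ ws
  len : ws.length ≤ m

/-- the adjoint family -/
def rf {α : Type*} (ws : List (ℝ → α × α)) : List (ℝ → α × α) :=
  (ws.map fun q s => (q s).swap).reverse

theorem rf_at {α : Type*} (ws : List (ℝ → α × α)) (s : ℝ) :
    (rf ws).map (· s) = rv (ws.map (· s)) := by
  simp [rf, rv, List.map_reverse, Function.comp_def]

theorem tw_at {ws : List (ℝ → Completion D × Completion D)} (h : List.Forall₂ (Fa c K T N) σ ws)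
    (hs : s ∈ Icc 0 T) : Tw c (cph s '' K) σ (ws.map (· s)) :=
  List.forall₂_map_right_iff.2 (h.imp fun _ _ k => k.ty s hs)

namespace Fw

variable {ws : List (ℝ → Completion D × Completion D)}

theorem cp (h : Fw c n m K T N ws) (hs : s ∈ Icc 0 T) : IsCompact (cph s '' K) :=
  cph_cpt h.cpt fun z hz => rc_rh (rc_le hs (h.reg z hz))

theorem sub (h : Fw c n m K T N ws) (hs : s ∈ Icc 0 T) : cph s '' K ⊆ W0 := by
  rintro _ ⟨z, hz, rfl⟩
  exact rc_cph (rc_le hs (h.reg z hz))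

theorem ok (h : Fw c n m K T N ws) (hs : s ∈ Icc 0 T) : Ok c n m (cph s '' K) (ws.map (· s)) :=
  ⟨h.cp hs, h.ty.imp fun _ a => ⟨a.1, tw_at a.2 hs⟩, by rw [List.length_map]; exact h.len⟩

theorem take {m' : ℕ} (h : Fw c n m K T N ws) {i : ℕ} (hi : i ≤ m') : Fw c n m' K T N (ws.take i) :=
  ⟨h.cpt, h.reg, let ⟨σ, a, b⟩ := h.ty
    ⟨σ.take i, ((List.take_sublist _ _).count_le _).trans a, List.forall₂_take i b⟩,
    (List.length_take_le _ _).trans hi⟩

theorem drop {m' : ℕ} (h : Fw c n m K T N ws) {i : ℕ} (hi : ws.length - i ≤ m') :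
    Fw c n m' K T N (ws.drop i) :=
  ⟨h.cpt, h.reg, let ⟨σ, a, b⟩ := h.ty
    ⟨σ.drop i, ((List.drop_sublist _ _).count_le _).trans a, List.forall₂_drop i b⟩,
    by rwa [List.length_drop]⟩

theorem rev (h : Fw c n m K T N ws) : Fw c n m K T N (rf ws) :=
  ⟨h.cpt, h.reg, let ⟨σ, a, b⟩ := h.ty
    ⟨σ.reverse, by rwa [List.count_reverse], List.rel_reverse
      (List.forall₂_map_right_iff.2 (b.imp fun _ _ k => k.swap))⟩, by simpa [rf] using h.len⟩

theorem pol (t : E0 c) (hc : COV c) (S : Sh c n m) (hT : 0 < T) (h : Fw c n m K T N ws) :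
    Pol (N * ws.length) (Icc 0 T) fun s => c.SK s (wv c (ws.map (· s))) := by
  induction ws with
  | nil => exact (Pol.const c.Om).congr fun s _ => c.K_vac s
  | cons q ws ih =>
    have h' : Fw c n m K T N ws := h.drop (i := 1) ((Nat.sub_le _ _).trans h.len)
    obtain ⟨σ, -, b⟩ := h.ty
    obtain ⟨e, a⟩ : ∃ e, Fa c K T N e q := by
      cases b with
      | cons a _ => exact ⟨_, a⟩
    refine Pol.weak hT subset_rfl t.sg.dense ?_
    rintro _ ⟨x, hx, rfl⟩
    rw [List.length_cons, mul_add, mul_one, add_comm]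
    exact ((a.p2.map x.toLinearMap).inn (ih h')).congr fun s hs =>
      prd_sk t.grp hs.1 (Rl.std t.grp (S.step t hc (h.ok hs)) (h.sub hs)) x hx

end Fw

end

end Vale.Agent.P352X.EB.NA
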