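import Vale.Agent.P352NA.Defs
import Vale.Agent.P352X.EB.LET
import Vale.Agent.P352X.CL.FL

/-!
# P352NA, row COV: finite families of fields that are invariant under the similitudes
-/

set_option linter.all false

open Filter Topology
open scoped ComplexConjugate

namespace Vale.Agent.P352X.EB.NA

open Vale.Agent.P352 Vale.Agent.P352.GF Vale.Agent.P352.BW Vale.Agent.P352.H246
open Vale.Agent.P352.H496 Vale.Agent.P352.H755 Vale.Agent.P352.H15
open Vale.Agent.P352.SubConf (IsAdj)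
open UniformSpace (Completion)

noncomputable section

variable {D : Type*} [NormedAddCommGroup D] [InnerProductSpace ℂ D] {c : Ctx D}

/-- the similitudes as linear maps -/
def ul (Q : Theory D) (g : Sg) : D →ₗ[ℂ] D :=
  ⟨⟨Q.U g.s g.L g.a, U_add g.hs g.hL g.a⟩, U_smul g.hs g.hL g.a⟩

theorem zz_le {s : ℝ} (hs : 1 ≤ s) (p : ℂ × ℕ) {e : ℕ} (h : ⌈(4 - p.1).re⌉₊ + p.2 ≤ e) :
    ‖CL.zz s p‖ ≤ s ^ e := by
  have h0 := one_pos.trans_le hs
  have := Real.log_nonneg hs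
  rw [CL.zz, norm_mul, Complex.norm_cpow_eq_rpow_re_of_pos h0, norm_pow, Complex.norm_real,
    Real.norm_of_nonneg this]
  refine le_trans ?_ (pow_le_pow_right₀ hs h)
  rw [pow_add, ← Real.rpow_natCast s ⌈_⌉₊]
  exact mul_le_mul (Real.rpow_le_rpow_of_exponent_le hs (Nat.le_ceil _))
    (pow_le_pow_left₀ this ((Real.log_le_sub_one_of_pos h0).trans (by linarith)) _)
    (by positivity) (by positivity)

theorem cov_mf {k : Rp} {Φ : Fin k.n → Fld D} (h : IsMf c.Q k Φ) {F : Fin k.n → Finset (ℂ × ℕ)}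
    {C : Fin k.n → ℂ × ℕ → Fld D} (hC : ∀ b, Scl c.Q (Φ b) (F b) (C b)) (μ : Fin k.n) (g : Sg)
    {f : Fn} (hf : IsTest f) (v : D) : Φ μ f (c.Q.U g.s g.L g.a v) =
      ∑ i : Σ b, F b, (k.ρ g.L i.1 μ * CL.zz g.s i.2) • ul c.Q g (C i.1 i.2 (g.pull f) v) := by
  have o := H496.isLor_one
  have R := Fss.G.m1_rep c.hN.toRep
  have e : ∀ v, c.Q.U g.s g.L g.a v = ul c.Q ⟨1, _, g.a, one_pos, o⟩
      (ul c.Q ⟨1, g.L, 0, one_pos, g.hL⟩ (c.Q.U g.s GF.one 0 v)) := fun v => by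
    refine (Fss.G.U_dil R g.hs g.hL g.a v).2.symm.trans (Eq.trans ?_
      (R 1 _ g.a 1 g.L 0 _ one_pos one_pos o g.hL (.inl rfl)).symm)
    simp only [Fss.sim_dil, zero_add, one_smul, smul_zero, add_zero, mul_one]
    rfl
  have f1 := Ap.test_sim one_pos o g.a hf
  have f2 := Ap.test_sim one_pos g.hL 0 f1
  have e' : ∀ v, ul c.Q g v = _ := e
  simp only [e, e']
  refine (c.Q.transl _ g.a f _ (h.1 μ) hf).trans ?_
  refine (congrArg _ (h.2 μ g.L _ _ g.hL f1)).trans ?_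
  rw [Fintype.sum_sigma]
  refine (map_sum (ul c.Q ⟨1, _, g.a, one_pos, o⟩) _ _).trans (Finset.sum_congr rfl fun ν _ => ?_)
  rw [(hC ν).2 g.s _ v g.hs f2, map_smul, ← Finset.sum_coe_sort]
  show _ • ul c.Q _ (ul c.Q ⟨1, g.L, 0, one_pos, g.hL⟩ _) = _
  simp only [map_sum, map_smul, Finset.smul_sum, smul_smul]
  refine Finset.sum_congr rfl fun i _ => ?_
  congr 5
  funext x
  show _ = f (sim g.s g.L g.a x)
  rw [N86.c1_sim g.s g.L g.a, Fss.sim_dil, Fss.sim_dil, one_smul, zero_add]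
  congr 2
  funext n
  simp [sim, Finset.mul_sum, mul_assoc]

theorem cov_row (t : N0 c) : COV c := by
  intro B B' hB hB' hA
  obtain ⟨n, A, h1, h2⟩ := t.mf B hB
  choose k Φ μ hΦ e using h1
  choose F C hC using fun i b => t.fsl _ ((hΦ i).1 b)
  choose C' c1 c2 using fun i b p => c.Q.adj _ ((hC i b).1 p).1
  let ι := Σ i, Σ b, F i b
  let E := (Fintype.equivFin ι).symm
  let κ : Sg → ι → ℂ := fun g j => (k j.1).ρ g.L j.2.1 (μ j.1) * CL.zz g.s j.2.2
  have key : ∀ (g : Sg) f v, IsTest f → B f (c.Q.U g.s g.L g.a v) =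
      ∑ i, κ g (E i) • c.Q.U g.s g.L g.a (C (E i).1 (E i).2.1 (E i).2.2 (g.pull f) v) :=
    fun g f v hf => by
      rw [E.sum_comp fun j : ι => κ g j • c.Q.U g.s g.L g.a (C j.1 j.2.1 j.2.2 (g.pull f) v),
        h2 f _ hf, Fintype.sum_sigma]
      exact Finset.sum_congr rfl fun i _ => by rw [e, cov_mf (hΦ i) (hC i) (μ i) g hf]; rfl
  refine ⟨Finset.univ.sup fun j : ι => ⌈(4 - j.2.2.1.1).re⌉₊ + j.2.2.1.2, _,
    fun i => C (E i).1 (E i).2.1 (E i).2.2, fun i => C' (E i).1 (E i).2.1 (E i).2.2,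
    fun g i => κ g (E i), fun i => ⟨((hC _ _).1 _).1, c1 _ _ _, c2 _ _ _⟩, fun g hs hL i => ?_,
    fun g f v hf => ⟨key g f v hf, Let.cov_adj t.toE0 g hA (fun i => c2 _ _ _) (key g) f v hf⟩⟩
  refine (norm_mul_le _ _).trans ((mul_le_of_le_one_left (norm_nonneg _) ?_).trans (zz_le hs _
    (Finset.le_sup (f := fun j : ι => ⌈(4 - j.2.2.1.1).re⌉₊ + j.2.2.1.2) (Finset.mem_univ (E i)))))
  rw [hL, (k _).id, Matrix.one_apply]
  split_ifs <;> simp

end

end Vale.Agent.P352X.EB.NA
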