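import Vale.Agent.P352NA.LB
import Vale.Agent.P352NA.COV
import Vale.Agent.P352X.EB.STR

/-!
# P352NA: extensions
-/

set_option linter.all false

open Filter Topology
open scoped ComplexConjugate

namespace Vale.Agent.P352X.EB.NA

open Vale.Agent.P352 Vale.Agent.P352.GF Vale.Agent.P352.BW Vale.Agent.P352.H246
open Vale.Agent.P352.H496 Vale.Agent.P352.H755 Vale.Agent.P352.H15
open Vale.Agent.P352.SubConf (IsAdj)
open Vale.Agent.P352NA
open UniformSpace (Completion)
open Complex (I)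

noncomputable section

variable {D : Type*} [NormedAddCommGroup D] [InnerProductSpace ℂ D] {c : Ctx D} {Q : Theory D}
  {D' : Submodule ℂ (Completion D)} {Q' : Theory D'} {e : Fld D → Fld D'} {B B' : Fld D} {f : Fn}
  {w : D}

theorem cyc_vac : Cyc Q Q.vac := fun _ h _ => h

theorem cyc_fld (hB : Q.fld B) (hf : IsTest f) (h : Cyc Q w) : Cyc Q (B f w) :=
  fun S a b => b B f w hB hf (h S a b)

/-- the vectors generated from the vacuum -/
def cs (Q : Theory D) : Submodule ℂ D where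
  carrier := {w | Cyc Q w}
  add_mem' := fun h h' S a b => S.add_mem (h S a b) (h' S a b)
  zero_mem' := fun S _ _ => S.zero_mem
  smul_mem' := fun z _ h S a b => S.smul_mem z (h S a b)

theorem cs_dense (Q : Theory D) : DenseRange fun w : cs Q => ((w : D) : Completion D) :=
  Completion.denseRange_coe.comp
    (Q.cyclic (cs Q) cyc_vac fun _ _ _ a b d => cyc_fld a b d).denseRange_val
    (Completion.continuous_coe D)

theorem ext_C (Q : Theory D) {x y : D'} (h : ∀ w : D, Cyc Q w →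
    inner ℂ (x : Completion D) (w : Completion D) = inner ℂ (y : Completion D) (w : Completion D)) :
    x = y := STRa.ext_dense (cs_dense Q) fun w => h w w.2

theorem U_U (t : E0 c) (g : Sg) (v : D) :
    c.Q.U g.s g.L g.a (c.Q.U g.inv.s g.inv.L g.inv.a v) = v ∧
      c.Q.U g.inv.s g.inv.L g.inv.a (c.Q.U g.s g.L g.a v) = v := by
  constructor <;> refine Completion.coe_injective D ?_
  · rw [← t.grp.coe _ _ _ _ g.hs g.hL, ← t.grp.coe _ _ _ _ g.inv.hs g.inv.hL]
    exact (congrArg _ (DFunLike.congr_fun (t.sg.U_inv g) _)).trans (Mu1.ss' t.sg g _)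
  · rw [← t.grp.coe _ _ _ _ g.inv.hs g.inv.hL, ← t.grp.coe _ _ _ _ g.hs g.hL]
    exact (DFunLike.congr_fun (t.sg.U_inv g) _).trans (Mu1.ss t.sg g _)

theorem cyc_U (t : E0 c) (hc : COV c) (g : Sg) (h : Cyc c.Q w) : Cyc c.Q (c.Q.U g.s g.L g.a w) := by
  refine h ((cs c.Q).comap (ul c.Q g)) ?_ fun A f v hA hf hv => ?_
  · show Cyc c.Q (c.Q.U _ _ _ _)
    rw [c.Q.U_vac _ _ _ g.hs g.hL]
    exact cyc_vac
  obtain ⟨A', hA', d⟩ := c.Q.adj A hA
  obtain ⟨_, n, C, C', κ, h1, -, h2⟩ := hc A A' hA hA' d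
  have := (h2 g.inv f (c.Q.U g.s g.L g.a v) hf).1
  rw [(U_U t g v).2] at this
  rw [Submodule.mem_comap, this, map_sum]
  refine Submodule.sum_mem _ fun i _ => ?_
  rw [map_smul]
  refine Submodule.smul_mem _ _ ?_
  show Cyc c.Q (c.Q.U _ _ _ _)
  rw [(U_U t g _).1]
  exact cyc_fld (h1 i).1 (t.sg.test _ _ hf) hv

theorem ext_aff (E : Ext0 Q Q' e) (a : Q.fld B) (b : Q.fld B') (d : IsAdj B B') (hf : IsTest f)
    (v : D') (h : Cyc Q w) : inner ℂ (e B f v : Completion D) (w : Completion D) =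
      inner ℂ (v : Completion D) (B' (bar f) w : Completion D) := by
  rw [← E.agree B' _ ⟨_, E.mem w h⟩ w b (Ap.test_bar hf) h rfl]
  exact E.adj B B' a b d f v ⟨_, E.mem w h⟩ hf

/-- covariance relations pass to the extension -/
theorem ext_cov (t : E0 c) (hc : COV c) (E : Ext0 c.Q Q' e) (g : Sg) {ι : Type} [Fintype ι]
    {C : ι → Fld D} {κ : ι → ℂ} (hB : c.Q.fld B) (hC : ∀ i, c.Q.fld (C i))
    (h : ∀ f v, IsTest f → B f (c.Q.U g.s g.L g.a v) =
      ∑ i, κ i • c.Q.U g.s g.L g.a (C i (g.pull f) v)) (hf : IsTest f) (v : D') :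
    e B f (Q'.U g.s g.L g.a v) = ∑ i, κ i • Q'.U g.s g.L g.a (e (C i) (g.pull f) v) := by
  obtain ⟨B', b, hB'⟩ := c.Q.adj B hB
  choose C' b' hC' using fun i => c.Q.adj (C i) (hC i)
  have h0 := fun w => Let.cov_adj t g hB' hC' h _ w (Ap.test_bar hf)
  have hU := t.sg.uni g
  have hW : ∀ x y, inner ℂ (g.U c x) (g.U c y) = inner ℂ x y :=
    ContinuousLinearMap.inner_map_map_of_mem_unitary hU
  refine STRa.ext_dense (u := fun w : cs c.Q => g.U c (w : D))
    ((Function.Surjective.denseRange fun z => ⟨_, Mu1.ss' t.sg g z⟩).comp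
      (cs_dense c.Q) (g.U c).continuous) fun w => ?_
  have h2 : ∀ z : D', (Q'.U g.s g.L g.a z : Completion D) = g.U c z := fun z =>
    (E.U _ _ _ z g.hs g.hL).trans (Ug_apply _ g.hs g.hL _ _).symm
  have h3 : ∀ z : D, ((c.Q.U g.s g.L g.a z : D) : Completion D) = g.U c z := fun z =>
    (t.grp.coe _ _ _ z g.hs g.hL).symm
  conv_lhs => rw [← h3, ext_aff E hB b hB' hf _ (cyc_U t hc g w.2), h0, h2]
  simp only [STRa.coe_sum, Completion.coe_smul, Submodule.coe_sum, Submodule.coe_smul, inner_sum,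
    sum_inner, inner_smul_left, inner_smul_right, h2, h3, hW,
    fun i => ext_aff E (hC i) (b' i) (hC' i) (t.sg.test g f hf) v w.2]
  rfl

/-- the stress tensor of an extension -/
theorem str0 (t : E0 c) (hc : COV c) (E : Ext0 c.Q Q' e) (hA : ∀ A, Q'.fld A →
    ∃ (n : ℕ) (B : Fin n → Fld D), (∀ i, c.Q.fld (B i)) ∧
      ∀ f v, IsTest f → A f v = ∑ i, e (B i) f v) : Q'.IsStress fun m n => e (c.T m n) := by
  have hT := c.hT
  have hf : ∀ m n, c.Q.fld (c.T m n) := fun m n => c.Q.bose_fld _ (hT.bose m n)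
  have ha := fun m n f (h : IsTest f) (v : D') (w : D) (hw : Cyc c.Q w) =>
    ext_aff E (hf m n) (hf m n) (hT.herm m n) h v hw
  refine ⟨fun m n => E.fld _ (hf m n), fun m n f v h => ext_C c.Q fun w hw => ?_,
    fun m n => E.adj _ _ (hf m n) (hf m n) (hT.herm m n), fun m n s L a f v hs hL h => ?_,
    fun n f v h => ext_C c.Q fun w hw => ?_, fun F n B f v w hF hB h hs => ?_⟩
  · rw [ha _ _ _ h _ _ hw, ha _ _ _ h _ _ hw, hT.symm m n _ _ (Ap.test_bar h)]
  · exact (ext_cov t hc E ⟨s, L, a, hs, hL⟩ (C := fun p : Ix × Ix => c.T p.1 p.2)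
      (κ := fun p => (L p.1 m * L p.2 n : ℂ)) (hf m n) (fun _ => hf _ _) (fun g w hg =>
        (hT.cov m n s L a g w hs hL hg).trans (Fintype.sum_prod_type' _).symm) h v).trans
      (Fintype.sum_prod_type _)
  · rw [Submodule.coe_sum, sum_inner]
    simp only [ha _ _ _ (Ap.test_pd _ h) _ _ hw, H755.bar_pd h]
    rw [← inner_sum, ← STRa.coe_sum, hT.conserved n _ w (Ap.test_bar h), Completion.coe_zero,
      inner_zero_right, Submodule.coe_zero, inner_zero_left]
  · obtain ⟨k, C, hC, h1⟩ := hA B hB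
    choose C' hC' adj using fun i => c.Q.adj (C i) (hC i)
    have hb : HasCompactSupport (bar f) := hs.comp_left (g := star) (star_zero _)
    refine tendsto_const_nhds.congr' ?_
    filter_upwards [STRa.exact_charge hT hF (Ap.test_bar h) hb, eventually_gt_atTop 0] with R hR R0
    obtain ⟨a, b, -, -, -, -, h2⟩ := hF
    obtain ⟨h3, h4⟩ := h2 R R0
    have h5 : bar (F R) = F R := funext fun x => by
      change conj (F R x) = F R x
      rw [h4, map_mul, Complex.conj_ofReal, Complex.conj_ofReal]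
    congr 1
    refine ext_C c.Q fun z hz => ?_
    have h6 := fun i g (hg : IsTest g) (u : D') (y : D) (hy : Cyc c.Q y) =>
      ext_aff E (hC i) (hC' i) (adj i) hg u hy
    rw [Submodule.coe_sub, inner_sub_left, ha _ _ _ h3 _ _ hz, h1 _ _ h, h1 _ _ h,
      h1 _ _ (Ap.test_pd n h), h5]
    simp only [Submodule.coe_sum, Submodule.coe_smul, sum_inner, inner_smul_left, h6 _ _ h _ _ hz,
      h6 _ _ h _ _ (cyc_fld (hf _ _) h3 hz), h6 _ _ (Ap.test_pd n h) _ _ hz,
      ha _ _ _ h3 _ _ (cyc_fld (hC' _) (Ap.test_bar h) hz), h5, H755.bar_pd h]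
    rw [← Finset.sum_sub_distrib, Finset.mul_sum]
    refine Finset.sum_congr rfl fun i _ => ?_
    rw [← inner_sub_right, ← Completion.coe_sub, ← neg_sub, hR _ (hC' i), Completion.coe_neg,
      Completion.coe_smul, inner_neg_right, inner_smul_right]
    simp

end

end Vale.Agent.P352X.EB.NA
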