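import Vale.Agent.P352NA.JB

/-!
# P352NA, row TMP: tempered bounds for words
-/

set_option linter.all false

open Filter Topology Metric
open scoped SchwartzMap ComplexConjugate

namespace Vale.Agent.P352X.EB.NA


open Vale.Agent.P352 Vale.Agent.P352.GF Vale.Agent.P352.H246
open UniformSpace (Completion)

noncomputable section

namespace Tmp

variable {Λ : Type*}

theorem sn0 (m : ℕ) (f : Sch) : 0 ≤ sn m f := apply_nonneg _ _

theorem snw_cons (m : ℕ) (p : Λ × Sch) (u : List (Λ × Sch)) :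
    snw m (p :: u) = sn m p.2 * snw m u := by simp [snw]

theorem snw0 (m : ℕ) (u : List (Λ × Sch)) : 0 ≤ snw m u := by
  induction u with
  | nil => simp [snw]
  | cons p u ih => rw [snw_cons]; exact mul_nonneg (sn0 _ _) ih

/-- compact supports -/
def CS (u : List (Λ × Sch)) : Prop := ∀ p ∈ u, HasCompactSupport p.2

/-- supports in a ball -/
def BS (R : ℝ) (u : List (Λ × Sch)) : Prop := ∀ p ∈ u, tsupport p.2 ⊆ closedBall 0 R

theorem BS.cs {R : ℝ} {u : List (Λ × Sch)} (h : BS R u) : CS u := fun p hp =>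
  (isCompact_closedBall _ _).of_isClosed_subset (isClosed_tsupport _) (h p hp)

/-- `DY` slot by slot -/
theorem slots (dy : DY) (m M : ℕ) : ∃ (m' : ℕ) (C : ℝ), 0 ≤ C ∧ ∀ (ls : List Λ)
    (q : List (Λ × Sch) → ℝ) (κ : ℝ), 0 ≤ κ →
    (∀ u a (f g : Sch) w, CS u → HasCompactSupport f → HasCompactSupport g → CS w →
      q (u ++ (a, f + g) :: w) ≤ q (u ++ (a, f) :: w) + q (u ++ (a, g) :: w)) →
    (∀ (R : ℝ) u, 1 ≤ R → u.map Prod.fst = ls → BS R u → q u ≤ κ * R ^ M * snw m u) →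
    ∀ u, u.map Prod.fst = ls → CS u → q u ≤ C ^ ls.length * κ * snw m' u := by
  obtain ⟨m', C, hC, dy⟩ := dy m M
  refine ⟨m', C, hC, fun ls => ?_⟩
  induction ls with
  | nil =>
    intro q κ _ _ hb u hu _
    obtain rfl := List.map_eq_nil_iff.1 hu
    simpa [snw] using hb 1 [] le_rfl rfl fun _ h => by simp at h
  | cons a ls ih =>
    intro q κ hκ hs hb u hu hc
    obtain ⟨p, w, rfl, hp, hw⟩ := List.map_eq_cons_iff.1 hu
    obtain ⟨a', f⟩ := p
    obtain rfl : a' = a := hp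
    have hcw : CS w := fun p hp => hc p (List.mem_cons_of_mem _ hp)
    have h0 := snw0 m' w
    have := dy (fun f => q ((a', f) :: w)) (C ^ ls.length * κ * snw m' w) (by positivity)
      (fun f g hf hg => hs [] a' f g w (fun _ h => by simp at h) hf hg hcw)
      (fun R f hR hf => ?_) f (hc _ List.mem_cons_self)
    · rw [snw_cons, List.length_cons]
      refine this.trans (le_of_eq ?_)
      ring
    have hf' : HasCompactSupport f :=
      (isCompact_closedBall _ _).of_isClosed_subset (isClosed_tsupport _) hf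
    have h1 := sn0 m f
    refine (ih (fun w => q ((a', f) :: w)) (κ * R ^ M * sn m f) (by positivity)
      (fun u b g g' w hu hg hg' hw => hs ((a', f) :: u) b g g' w
        (List.forall_mem_cons.2 ⟨hf', hu⟩) hg hg' hw)
      (fun R' u hR' hu hB => ?_) w hw hcw).trans (le_of_eq (by ring))
    refine (hb (R * R') ((a', f) :: u) (one_le_mul_of_one_le_of_one_le hR hR') (by simp [hu])
      (List.forall_mem_cons.2 ⟨hf.trans (closedBall_subset_closedBall ?_), fun p hp =>
        (hB p hp).trans (closedBall_subset_closedBall ?_)⟩)).trans (le_of_eq ?_)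
    · exact le_mul_of_one_le_right (by linarith) hR'
    · exact le_mul_of_one_le_left (by linarith) hR
    · rw [snw_cons, mul_pow]
      ring

theorem inn {f : Sch} (h : HasCompactSupport f) : In Set.univ (ev f) :=
  ⟨⟨f, rfl⟩, h, Set.subset_univ _⟩

variable {D : Type*} [NormedAddCommGroup D] [InnerProductSpace ℂ D] {c : Ctx D} {x : Lt c Λ}

theorem ap_cons (p : Λ × Sch) (u : List (Λ × Sch)) (v : Completion D) :
    x.ap (evw (p :: u)) v = x.op p.1 (ev p.2) (x.ap (evw u) v) := rfl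

theorem ap_app (u w : List (Λ × Sch)) (v : Completion D) :
    x.ap (evw (u ++ w)) v = x.ap (evw u) (x.ap (evw w) v) := by
  simp [Lt.ap, evw, List.foldr_append]

theorem ap_mem (o : OPS x) {u : List (Λ × Sch)} (hu : CS u) {v : Completion D} (hv : D1 c v) :
    D1 c (x.ap (evw u) v) := by
  induction u with
  | nil => exact hv
  | cons p u ih =>
    obtain ⟨h1, h2⟩ := List.forall_mem_cons.1 hu
    exact o.mem _ _ _ (inn h1) (ih h2)

theorem ap_add (o : OPS x) {u : List (Λ × Sch)} (hu : CS u) {v w : Completion D} (hv : D1 c v)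
    (hw : D1 c w) : x.ap (evw u) (v + w) = x.ap (evw u) v + x.ap (evw u) w := by
  induction u with
  | nil => rfl
  | cons p u ih =>
    obtain ⟨h1, h2⟩ := List.forall_mem_cons.1 hu
    rw [ap_cons, ap_cons, ap_cons, ih h2,
      o.add _ _ _ _ (inn h1) (ap_mem o h2 hv) (ap_mem o h2 hw)]

theorem sub (o : OPS x) (u : List (Λ × Sch)) (a : Λ) (f g : Sch) (w : List (Λ × Sch)) (hu : CS u)
    (hf : HasCompactSupport f) (hg : HasCompactSupport g) (hw : CS w) :
    ‖x.ap (evw (u ++ (a, f + g) :: w)) c.Om‖ ≤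
      ‖x.ap (evw (u ++ (a, f) :: w)) c.Om‖ + ‖x.ap (evw (u ++ (a, g) :: w)) c.Om‖ := by
  have hv := ap_mem o hw o.d_vac
  have e : ev (f + g) = fun y => ev f y + 1 * ev g y := by
    funext y
    simp [ev]
  have h := o.lin a (ev f) (ev g) 1 _ (inn hf) (inn hg) hv
  rw [one_smul, ← e] at h
  simp only [ap_app, ap_cons]
  rw [h, ap_add o hu (o.mem _ _ _ (inn hf) hv) (o.mem _ _ _ (inn hg) hv)]
  exact norm_add_le _ _

/-- the dilations -/
def dl (c : Ctx D) (s : ℝ) (hs : 1 ≤ s) : Sg :=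
  ⟨s, GF.one, 0, by linarith, H496.isLor_one⟩

theorem dl_act {s : ℝ} (hs : 1 ≤ s) (y : V) : (dl c s hs).act y = s • y := by
  funext n
  simp [dl, Sg.act, sim, GF.one, bas]

/-- new labels and new functions -/
def rl (P : Sch → Sch) (b : List Λ) (u : List (Λ × Sch)) : List (Λ × Sch) :=
  List.zipWith (fun l p => (l, P p.2)) b u

theorem rl_mem {P : Sch → Sch} : ∀ {b : List Λ} {u : List (Λ × Sch)} {q}, q ∈ rl P b u →
    ∃ p ∈ u, q.2 = P p.2
  | [], _, _, h => by simp [rl] at h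
  | _ :: _, [], _, h => by simp [rl] at h
  | l :: b, p :: u, q, h => by
    rcases List.mem_cons.1 h with rfl | h
    · exact ⟨p, List.mem_cons_self, rfl⟩
    · obtain ⟨r, h1, h2⟩ := rl_mem (b := b) h
      exact ⟨r, List.mem_cons_of_mem _ h1, h2⟩

theorem rl_fst {P : Sch → Sch} : ∀ {b : List Λ} {u : List (Λ × Sch)}, b.length = u.length →
    (rl P b u).map Prod.fst = b
  | [], _, _ => rfl
  | _ :: _, [], h => by simp at h
  | l :: b, p :: u, h => congrArg (l :: ·) (rl_fst (b := b) (u := u) (by simpa using h))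

theorem rl_snw {P : Sch → Sch} {m : ℕ} {κ : ℝ} (h0 : 0 ≤ κ) (h : ∀ f, sn m (P f) ≤ κ * sn m f) :
    ∀ {b : List Λ} {u : List (Λ × Sch)}, b.length = u.length →
      snw m (rl P b u) ≤ κ ^ u.length * snw m u
  | [], [], _ => by simp [snw, rl]
  | [], _ :: _, e => by simp at e
  | _ :: _, [], e => by simp at e
  | l :: b, p :: u, e => by
    have a := rl_snw h0 h (b := b) (u := u) (by simpa using e)
    have := sn0 m p.2
    rw [snw_cons, List.length_cons]
    exact (snw_cons m (l, P p.2) (rl P b u)).trans_le ((mul_le_mul (h p.2) a (snw0 _ _)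
      (by positivity)).trans (le_of_eq (by ring)))

theorem op_sum (o : OPS x) (a : Λ) {f : Fn} (hf : In Set.univ f) {ι : Type} (s : Finset ι)
    (κ : ι → ℂ) {v : ι → Completion D} (hv : ∀ i, D1 c (v i)) : D1 c (∑ i ∈ s, κ i • v i) ∧
      x.op a f (∑ i ∈ s, κ i • v i) = ∑ i ∈ s, κ i • x.op a f (v i) := by
  classical
  induction s using Finset.induction_on with
  | empty => simpa using ⟨o.d_zero, by simpa using o.smul a f 0 0 hf o.d_zero⟩
  | insert i s hi ih =>
    have := o.d_smul (κ i) _ (hv i)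
    simp only [Finset.sum_insert hi]
    exact ⟨o.d_add _ _ this ih.1, by rw [o.add _ _ _ _ hf this ih.1, ih.2, o.smul _ _ _ _ hf (hv i)]⟩

theorem dil (t : E1 x) (ls : List Λ) : ∃ (e : ℕ) (ι : Type) (_ : Fintype ι) (b : ι → List Λ),
    (∀ i, (b i).length = ls.length) ∧ ∀ (s : ℝ) (hs : 1 ≤ s) (P : Sch → Sch),
    (∀ f, ev (P f) = (dl c s hs).pull (ev f)) → ∃ κ : ι → ℂ, (∀ i, ‖κ i‖ ≤ s ^ e) ∧
      ∀ u : List (Λ × Sch), u.map Prod.fst = ls → CS u → x.ap (evw u) c.Om =
        ∑ i, κ i • (dl c s hs).U c (x.ap (evw (rl P (b i) u)) c.Om) := by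
  induction ls with
  | nil =>
    refine ⟨0, Unit, inferInstance, fun _ => [], fun _ => rfl, fun s hs P _ =>
      ⟨fun _ => 1, fun _ => by simp, fun u hu _ => ?_⟩⟩
    obtain rfl := List.map_eq_nil_iff.1 hu
    rw [Fintype.sum_unique, one_smul]
    exact (t.sg.vac _).1.symm
  | cons a ls ih =>
    obtain ⟨e, ι, _, b, hb, ih⟩ := ih
    obtain ⟨e', n, b', he'⟩ := x.dil a
    refine ⟨e' + e, ι × Fin n, inferInstance, fun i => b' i.2 :: b i.1, fun i => by simp [hb],
      fun s hs P hP => ?_⟩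
    obtain ⟨κ, hκ, h4⟩ := ih s hs P hP
    obtain ⟨κ', hκ', h5⟩ := he' s hs
    refine ⟨fun i => κ i.1 * κ' i.2, fun i => ?_, fun u hu hc => ?_⟩
    · rw [norm_mul, add_comm, pow_add]
      exact mul_le_mul (hκ _) (hκ' _) (norm_nonneg _) (by positivity)
    obtain ⟨p, w, rfl, hp, hw⟩ := List.map_eq_cons_iff.1 hu
    obtain ⟨a', f⟩ := p
    obtain rfl : a' = a := hp
    obtain ⟨h1, h2⟩ := List.forall_mem_cons.1 hc
    have hv : ∀ i, D1 c (x.ap (evw (rl P (b i) w)) c.Om) := fun i =>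
      ap_mem t.ops (fun q hq => by
        obtain ⟨p, p1, p2⟩ := rl_mem hq
        have := (t.sg.inn (dl c s hs) _ _ (inn (h2 p p1))).2.1
        rwa [← hP, ← p2] at this) t.ops.d_vac
    rw [ap_cons, h4 w hw h2, (op_sum t.ops _ (inn h1) _ _ fun i => t.ops.d_U _ _ (hv i)).2,
      Fintype.sum_prod_type]
    refine Finset.sum_congr rfl fun i _ => ?_
    rw [t.ops.cov a' (dl c s hs) n κ' b' _ _ h5 (inn h1) (hv i), Finset.smul_sum]
    refine Finset.sum_congr rfl fun j _ => ?_
    rw [smul_smul, ← hP]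
    rfl

theorem ball (t : E1 x) (j : JB x) (ls : List Λ) : ∃ (m M : ℕ) (κ : ℝ), 0 ≤ κ ∧
    ∀ (R : ℝ) (u : List (Λ × Sch)), 1 ≤ R → u.map Prod.fst = ls → BS R u →
      ‖x.ap (evw u) c.Om‖ ≤ κ * R ^ M * snw m u := by
  obtain ⟨e, ι, _, b, hb, he⟩ := dil t ls
  choose m' C hC j using fun i => j (b i) _ t.ops.d_vac
  let m := Finset.univ.sup m'
  obtain ⟨C', hC', hd⟩ := t.ana.dil m
  have hS : 0 ≤ ∑ i, C i := Finset.sum_nonneg fun i _ => hC i
  refine ⟨m, e + m * ls.length, (∑ i, C i) * C' ^ ls.length, by positivity,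
    fun R u hR hu hB => ?_⟩
  obtain ⟨P, hP⟩ := t.sg.clm (dl c R hR)
  obtain ⟨κ, hκ, h⟩ := he R hR P hP
  have h5 : u.length = ls.length := by rw [← hu, List.length_map]
  have h1 : ∀ i, cutw 0 (evw (rl P (b i) u)) = evw (rl P (b i) u) := fun i => by
    simp only [cutw, evw, List.map_map]
    refine List.map_congr_left fun q hq => Prod.ext rfl (t.ana.eq 0 _ fun y hy => ?_)
    obtain ⟨p, hp, e⟩ := rl_mem hq
    simp only [Function.comp, e, hP] at hy
    have h2 := (t.sg.inn (dl c R hR) _ _ ⟨⟨p.2, rfl⟩, hB.cs p hp, hB p hp⟩).2.2 hy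
    rw [Set.mem_preimage, dl_act, mem_closedBall_zero_iff, norm_smul,
      Real.norm_of_nonneg (by linarith)] at h2
    rw [mem_closedBall_zero_iff]
    have : ‖y‖ ≤ 1 := le_of_mul_le_mul_left (by linarith) (by linarith : 0 < R)
    simpa using this
  rw [h u hu hB.cs, Finset.sum_mul, Finset.sum_mul, Finset.sum_mul]
  refine (norm_sum_le _ _).trans (Finset.sum_le_sum fun i _ => ?_)
  have l := (hb i).trans h5.symm
  have h2 := j i _ (rl_fst (P := P) l)
  rw [h1] at h2
  have h4 := (JBp.snw_mono (Finset.le_sup (f := m') (Finset.mem_univ i)) _).trans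
    (rl_snw (P := P) (by positivity) (fun f => hd R f (P f) hR fun y => congrFun (hP f) y) l)
  have := hC i
  have := snw0 m u
  rw [norm_smul, ContinuousLinearMap.norm_map_of_mem_unitary (t.sg.uni _)]
  calc _ ≤ R ^ e * (C i * ((C' * R ^ m) ^ u.length * snw m u)) :=
        mul_le_mul (hκ i) (h2.trans (by gcongr)) (norm_nonneg _) (by positivity)
    _ = _ := by rw [h5, mul_pow, ← pow_mul, pow_add]; ring

end Tmp

variable {D : Type*} [NormedAddCommGroup D] [InnerProductSpace ℂ D] {c : Ctx D} {Λ : Type*}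
  {x : Lt c Λ}

open Tmp in
theorem tmp_row (t : E1 x) (j : JB x) : TMP x := by
  intro ls
  obtain ⟨m, M, κ, hκ, h⟩ := Tmp.ball t j ls
  obtain ⟨m', C, hC, h'⟩ := slots (Λ := Λ) t.dy m M
  refine ⟨m', C ^ ls.length * κ, by positivity, fun u hu hc => ?_⟩
  exact h' ls (fun u => ‖x.ap (evw u) c.Om‖) κ hκ (Tmp.sub t.ops) h u hu fun p hp =>
    (hc (p.1, ev p.2) (List.mem_map.2 ⟨p, hp, rfl⟩)).2.1

end

end Vale.Agent.P352X.EB.NA
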