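import Vale.Agent.P352NA.OPS
import Vale.Agent.P352NA.EXT
import Vale.Agent.P352NA.FS
import Vale.Agent.P352NA.REC
import Vale.Agent.P352NA.TMP
import Vale.Agent.P352NA.XT
import Vale.Agent.P352NA.AFW
import Vale.Agent.P352X.EB.FIN

/-!
# P352NA, row FIN: the extension with the local potential
-/

set_option linter.all false

open Filter Topology
open scoped ComplexConjugate

namespace Vale.Agent.P352X.EB.NA

open Vale.Agent.P352 Vale.Agent.P352.GF Vale.Agent.P352.BW Vale.Agent.P352.H246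
open Vale.Agent.P352.H496 Vale.Agent.P352.H755 Vale.Agent.P352.H15
open Vale.Agent.P352.SubConf (IsAdj)
open Vale.Agent.P352NA
open UniformSpace (Completion)

noncomputable section

variable {D : Type*} [NormedAddCommGroup D] [InnerProductSpace ℂ D] {c : Ctx D}

/-- the adjoint label -/
def dg : Option (Lb c.Q) → Option (Lb c.Q)
  | none => none
  | some p => some ⟨p.B', p.B, p.h', p.h, H755.adj_symm p.a⟩

/-- the vectors of a label -/
def ph (c : Ctx D) : Option (Lb c.Q) → Fn → Completion D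
  | none => c.l
  | some p => fun f => (p.B f c.Q.vac : D)

theorem cov_vac (t : E0 c) (g : Sg) {n : ℕ} {κ : Fin n → ℂ} {B : Fld D} {C : Fin n → Fld D} {f : Fn}
    (h : B f (c.Q.U g.s g.L g.a c.Q.vac) =
      ∑ i, κ i • c.Q.U g.s g.L g.a (C i (g.pull f) c.Q.vac)) :
    ((B f c.Q.vac : D) : Completion D) = ∑ i, κ i • g.U c (C i (g.pull f) c.Q.vac : D) := by
  rw [c.Q.U_vac _ _ _ g.hs g.hL] at h
  rw [h, Fin'.coe_sum]
  exact Finset.sum_congr rfl fun i _ => by
    rw [Completion.coe_smul, ← t.grp.coe _ _ _ _ g.hs g.hL]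
    rfl

/-- the letters -/
def lx (t : E0 c) (hc : COV c) : Lt c (Option (Lb c.Q)) where
  dag := dg
  φ := ph c
  dag2 := by rintro (_ | p) <;> rfl
  lin := by
    rintro (_ | p) f g z h1 h2
    · exact c.hl.lin f g z h1 h2
    · show ((_ : D) : Completion D) = (_ : D) + z • ((_ : D) : Completion D)
      rw [c.Q.lin _ f g z _ p.h h1 h2, Completion.coe_add, Completion.coe_smul]
  cont := by
    rintro (_ | p)
    exacts [c.hl.cont, (Completion.continuous_coe D).comp (c.Q.cont _ _ p.h)]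
  ty := by
    rintro (_ | p)
    exacts [⟨true, fun K f h => ⟨f, h, rfl⟩⟩, ⟨false, fun K f h => Tr.fld _ _ f p.h p.h' p.a h⟩]
  cov := by
    rintro (_ | p) g
    · refine ⟨1, fun _ => ((g.s ^ 2 : ℝ) : ℂ), fun _ => none, fun f h0 => ?_⟩
      rw [Fin.sum_univ_one, Complex.conj_ofReal]
      exact Let.pot t g h0
    · obtain ⟨_, n, C, C', κ, h1, -, h2⟩ := hc _ _ p.h p.h' p.a
      exact ⟨n, κ g, fun i => some ⟨C i, C' i, (h1 i).1, (h1 i).2.1, (h1 i).2.2⟩,
        fun f h0 => cov_vac t g (h2 g f _ h0).2⟩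
  tra := by
    rintro (_ | p) y f h0
    · simpa using! Let.pot t ⟨1, GF.one, y, one_pos, H496.isLor_one⟩ h0
    · exact Let.tra t p.h y h0
  dil := by
    rintro (_ | p)
    · refine ⟨2, 1, fun _ => none, fun s hs => ⟨fun _ => ((s ^ 2 : ℝ) : ℂ),
        fun _ => by simp [abs_of_pos (one_pos.trans_le hs)], fun f h0 => ?_⟩⟩
      rw [Fin.sum_univ_one, Complex.conj_ofReal]
      exact Let.pot t ⟨s, GF.one, 0, one_pos.trans_le hs, H496.isLor_one⟩ h0
    · obtain ⟨e, n, C, C', κ, h1, h3, h2⟩ := hc _ _ p.h p.h' p.a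
      exact ⟨e, n, fun i => some ⟨C i, C' i, (h1 i).1, (h1 i).2.1, (h1 i).2.2⟩, fun s hs =>
        let g : Sg := ⟨s, GF.one, 0, one_pos.trans_le hs, H496.isLor_one⟩
        ⟨κ g, h3 g hs rfl, fun f h0 => cov_vac t g (h2 g f _ h0).2⟩⟩

open Classical in
/-- the extension of the field `B` -/
def ee (x : Lt c (Option (Lb c.Q))) (B : Fld D) : Fld x.Dn :=
  if h : ∃ p : Lb c.Q, p.B = B then x.o (some h.choose) else fun _ _ => 0

theorem ee_eq (x : Lt c (Option (Lb c.Q))) {B : Fld D} (h : c.Q.fld B) :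
    ∃ p : Lb c.Q, p.B = B ∧ ee x B = x.o (some p) := by
  have k : ∃ p : Lb c.Q, p.B = B := let ⟨B', a, b⟩ := c.Q.adj B h; ⟨⟨B, B', h, a, b⟩, rfl⟩
  exact ⟨_, k.choose_spec, dif_pos k⟩

/-- row FIN: the extension with the local potential -/
def FIN (c : Ctx D) : Prop := ∃ (D' : Submodule ℂ (Completion D)) (Q' : Theory D')
  (e : Fld D → Fld D') (L : Fld D'), Ext0 c.Q Q' e ∧ AfW c.N Q' (↑) ∧
    Q'.IsStress (fun m n => e (c.T m n)) ∧
    Q'.IsScalar L 2 ∧ (∀ f v, IsTest f →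
      GF.tr (fun m n => e (c.T m n)) f v = (3 : ℂ) • L (box f) v) ∧
    ∀ A, Q'.fld A → ∃ (n : ℕ) (B : Fin n → Fld D'), (∀ i, B i = L ∨ ∃ C, c.Q.fld C ∧
      ∀ f v, IsTest f → B i f v = e C f v) ∧ ∀ f v, A f v = ∑ i, B i f v

theorem fin_row (t : E2 c) : FIN c := by
  let x := lx t.toE0 t.cov
  have t1 : E1 x := { t.toE0 with ops := ops_row t x }
  have E := ext_row t1 (tmp_row t1 (jb_row t1))
  have w := wp_row t1 E
  have F := fs_row w
  have V' := cv_row t1 E w F
  have r := rec_row t.toE0 F V'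
  have h2 : ∀ p : Lb c.Q, x.Is (some p) p.B p.B' := fun p => ⟨p.h, p.h', p.a, fun _ _ => ⟨rfl, rfl⟩⟩
  have eq : ∀ (p : Lb c.Q) f v, IsTest f → x.o (some p) f v = ee x p.B f v := fun p f v hf => by
    obtain ⟨q, a, b⟩ := ee_eq x p.h
    refine ext_C c.Q fun y hy => ?_
    rw [b, F.aff _ _ _ f v y (h2 p) hf hy, F.aff _ _ _ f v y (h2 q) hf hy,
      Let.adj_uniq p.a (a ▸ q.a) (Ap.test_bar hf)]
  have agree : ∀ B f (v : x.Dn) (u : D), c.Q.fld B → IsTest f → Cyc c.Q u →
      (v : Completion D) = u → (ee x B f v : Completion D) = (B f u : D) := by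
    intro B f v u hB hf hu e
    obtain ⟨q, rfl, b⟩ := ee_eq x hB
    refine (cs_dense c.Q).eq_of_inner_left ℂ fun y => ?_
    rw [b, F.aff _ _ _ f v y (h2 q) hf y.2, e, Completion.inner_coe, Completion.inner_coe,
      q.a f u y hf]
  have cyc : ∀ S : Submodule ℂ x.Dn, (∀ v : x.Dn, (v : Completion D) = c.Om → v ∈ S) →
      (∀ p f v, IsTest f → v ∈ S → x.o (some p) f v ∈ S) → ∀ u, Cyc c.Q u →
      ∃ v ∈ S, (v : Completion D) = u := fun S a1 a2 u hu =>
    (hu (cs c.Q ⊓ (S.map x.Dn.subtype).comap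
      (Completion.toComplL : D →L[ℂ] Completion D).toLinearMap)
      ⟨cyc_vac, ⟨c.Om, F.vac⟩, a1 _ rfl, rfl⟩ (by
        rintro B f u hB hf ⟨h, v, hv, e⟩
        obtain ⟨q, -, b⟩ := ee_eq x hB
        exact ⟨cyc_fld hB hf h, ee x B f v, b ▸ a2 q f v hf hv, agree B f v u hB hf h e⟩)).2
  have cyc' : ∀ P : Option (Lb c.Q) → Prop, (∀ p, P (some p)) → ∀ S : Submodule ℂ x.Dn,
      (∀ v : x.Dn, (v : Completion D) = c.Om → v ∈ S) →
      (∀ a f v, P a → IsTest f → v ∈ S → x.o a f v ∈ S) → Dense (S : Set x.Dn) :=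
    fun P hP S a1 a2 v => by
      rw [closure_subtype]
      refine closure_mono ?_ (cs_dense c.Q v)
      rintro _ ⟨u, rfl⟩
      exact cyc S a1 (fun p f v hf hv => a2 _ f v (hP p) hf hv) u u.2
  have ud := fun s L a v hs hL => RECr.ud V' (s := s) (L := L) hs hL a v
  have ex : ∀ (P : Option (Lb c.Q) → Prop) (Q' : Theory x.Dn), (∀ p, P (some p)) →
      (Q'.vac : Completion D) = c.Om → Q'.U = x.Ud → (∀ B, Q'.bose B ↔ x.Fs P B) →
      Ext0 c.Q Q' (ee x) := fun P Q' hP a1 a2 a3 =>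
    ⟨fun u hu => let ⟨v, _, e⟩ := cyc ⊤ (fun _ _ => trivial) (fun _ _ _ _ _ => trivial) u hu; e ▸ v.2,
      a1, fun s L a v hs hL => by rw [a2, ud s L a v hs hL, Ug_apply _ hs hL],
      fun B h => let ⟨q, _, b⟩ := ee_eq x h; (a3 _).2 (b ▸ RECr.fs_one (hP q)),
      fun B B' a b d f v u hf => by
        rw [← eq ⟨B, B', a, b, d⟩ f v hf, ← eq ⟨B', B, b, a, H755.adj_symm d⟩ _ u (Ap.test_bar hf)]
        exact F.herm _ f v u hf, agree⟩
  obtain ⟨Q0, a1, a2, a3, a4⟩ := r (· ≠ none) (fun a ha => by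
    cases a with
    | none => exact absurd rfl ha
    | some p => exact Option.some_ne_none _) (cyc' _ fun p => Option.some_ne_none p)
  obtain ⟨Q1, b1, b2, b3, b4⟩ := r (fun _ => True) (fun _ _ => trivial) (cyc' _ fun _ => trivial)
  have s0 := str0 t.toE0 t.cov (ex _ Q0 (fun p => Option.some_ne_none p) a1 a2 a4) fun A hA => by
    obtain ⟨n, b, hb, rfl⟩ := (a3 A).1 hA
    choose p hp using fun i => Option.ne_none_iff_exists'.1 (hb i)
    exact ⟨n, fun i => (p i).B, fun i => (p i).h, fun f v hf =>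
      Finset.sum_congr rfl fun i _ => by rw [hp, eq _ f v hf]⟩
  have enl : IsEnl Q0 Q1 := ⟨Subtype.ext (b1.trans a1.symm), b2.trans a2.symm,
    fun A hA => (b3 A).2 (((a3 A).1 hA).imp fun n h => h.imp fun b h => ⟨fun _ => trivial, h.2⟩),
    fun A hA => (b4 A).2 (((a4 A).1 hA).imp fun n h => h.imp fun b h => ⟨fun _ => trivial, h.2⟩)⟩
  refine ⟨x.Dn, Q1, ee x, x.o none, ex _ Q1 (fun _ => trivial) b1 b2 b4, afw_row t E w F b1 b3,
    H746.isStress_enl enl s0, ⟨(b4 _).2 (RECr.fs_one trivial), F.herm none, ?_⟩, ?_, fun A hA => ?_⟩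
  · intro s L a f v hs hL hf
    apply Subtype.ext
    have := V'.cov none ⟨s, L, a, hs, hL⟩ 1 (fun _ => ((s ^ 2 : ℝ) : ℂ)) (fun _ => none) f v
      (x.Ud s L a v) (fun g hg => by
        rw [Fin.sum_univ_one, Complex.conj_ofReal]
        exact Let.pot t.toE0 ⟨s, L, a, hs, hL⟩ hg) hf (ud s L a v hs hL)
    rw [b2, this, Submodule.coe_smul, ud _ _ _ _ hs hL, Fin.sum_univ_one,
      show (4 - 2 : ℝ) = (2 : ℕ) by norm_num, Real.rpow_natCast]
    rfl
  · choose q q1 q2 using fun m => ee_eq x (c.Q.bose_fld _ (c.hT.bose m m))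
    have hc : ∀ f v, In Set.univ f →
        GF.tr (fun m n => ee x (c.T m n)) f v = (3 : ℂ) • x.o none (box f) v := by
      intro f v hf
      have z := V'.zero 5 (Fin.cons (-3) fun m => eta m) (Fin.cons none fun m => some (q m))
        (Fin.cons (box f) fun _ => f) v (Fin.cases (Ap.in_box hf) fun _ => hf) (by
          rw [Fin.sum_univ_succ]
          simp only [Fin.cons_zero, Fin.cons_succ, neg_smul]
          rw [neg_add_eq_zero]
          refine (c.hl.trace f hf.1).trans ?_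
          rw [GF.tr, Fin'.coe_sum]
          exact Finset.sum_congr rfl fun m _ => by rw [Completion.coe_smul, ← q1]; rfl)
      rw [Fin.sum_univ_succ] at z
      simp only [Fin.cons_zero, Fin.cons_succ, neg_smul, ← q2] at z
      exact (neg_add_eq_zero.1 z).symm
    rintro _ v ⟨f, rfl⟩
    obtain ⟨P, hP⟩ := Fin'.box_clm
    obtain ⟨-, u, -, -, u2, -, u4⟩ := ST.exists_cut f
    have c1 : Continuous fun g : Sch => GF.tr (fun m n => ee x (c.T m n)) (ev g) v :=
      continuous_finset_sum _ fun m _ => by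
        simp only [q2]
        exact (F.cont _ v).const_smul (eta m : ℂ)
    have c2 : Continuous fun g : Sch => (3 : ℂ) • x.o none (box (ev g)) v := by
      simp only [← hP]
      exact ((F.cont none v).comp P.continuous).const_smul (3 : ℂ)
    exact tendsto_nhds_unique ((c1.tendsto f).comp u4) (((c2.tendsto f).comp u4).congr
      fun n => (hc _ v ⟨⟨u n, rfl⟩, u2 n, Set.subset_univ _⟩).symm)
  · obtain ⟨n, b, -, rfl⟩ := (b3 A).1 hA
    refine ⟨n, fun i => x.o (b i), fun i => ?_, fun _ _ => rfl⟩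
    dsimp only
    cases b i with
    | none => exact .inl rfl
    | some p => exact .inr ⟨p.B, p.h, eq p⟩

end

end Vale.Agent.P352X.EB.NA
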