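import Vale.Agent.P352NA.LOC

/-!
# P352NA: the letters as fields, vocabulary and rows
-/

set_option linter.all false

open MeasureTheory Filter Topology
open scoped SchwartzMap ComplexConjugate ContDiff

namespace Vale.Agent.P352X.EB.NA

open Vale.Agent.P352 Vale.Agent.P352.GF Vale.Agent.P352.BW Vale.Agent.P352.H246
open Vale.Agent.P352.H496 Vale.Agent.P352.H755 Vale.Agent.P352.H15
open Vale.Agent.P352.SubConf (IsAdj)
open Vale.Agent.P352NA
open UniformSpace (Completion)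

noncomputable section

variable {D : Type*} [NormedAddCommGroup D] [InnerProductSpace ℂ D]

/-- the tools for the action of the letters -/
structure E2 (c : Ctx D) : Prop extends E0 c where
  cov : COV c
  wrd : WRD c
  loc : LOC c

/-- the letters: fields applied to the vacuum -/
structure Lt (c : Ctx D) (Λ : Type*) where
  dag : Λ → Λ
  φ : Λ → Fn → Completion D
  dag2 : ∀ a, dag (dag a) = a
  lin : ∀ a (f g : Fn) (z : ℂ), IsTest f → IsTest g →
    φ a (fun x => f x + z * g x) = φ a f + z • φ a g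
  cont : ∀ a, Continuous fun g : Sch => φ a (ev g)
  ty : ∀ a, ∃ e, ∀ K f, In K f → Ty c K e (φ a f, φ (dag a) (bar f))
  cov : ∀ a (g : Sg), ∃ (n : ℕ) (κ : Fin n → ℂ) (b : Fin n → Λ), ∀ f, IsTest f →
    φ (dag a) f = ∑ i, conj (κ i) • g.U c (φ (dag (b i)) (g.pull f))
  tra : ∀ a y f, IsTest f → φ a f = Ut c.Q y (φ a fun x => f (sim 1 GF.one y x))
  dil : ∀ a, ∃ (e n : ℕ) (b : Fin n → Λ), ∀ s : ℝ, 1 ≤ s → ∃ κ : Fin n → ℂ,
    (∀ i, ‖κ i‖ ≤ s ^ e) ∧ ∀ f, IsTest f → φ (dag a) f = ∑ i, conj (κ i) •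
      Ug c.Q s GF.one 0 (φ (dag (b i)) fun x => f (sim s GF.one 0 x))

variable {c : Ctx D} {Λ : Type*}

namespace Lt

variable (x : Lt c Λ)

/-- the letter `a`, smeared with `f`, acting on local vectors -/
def op (a : Λ) (f : Fn) (v : Completion D) : Completion D := ml c (x.φ (x.dag a) (bar f)) v

/-- words acting on local vectors -/
def ap (u : Wd Λ) (v : Completion D) : Completion D := u.foldr (fun p w => x.op p.1 p.2 w) v

/-- words of Schwartz functions applied to the vacuum -/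
def W (u : Wd Λ) : Completion D := limUnder atTop fun R : ℕ => x.ap (cutw R u) c.Om

/-- the new domain -/
def Dn : Submodule ℂ (Completion D) := Submodule.span ℂ {z | ∃ u, TW u ∧ z = x.W u}

open Classical in
/-- the new fields -/
def o (a : Λ) : Fld x.Dn := fun f v =>
  if h : IsTest f ∧ ∃ z : x.Dn, ∀ u, TW u → inner ℂ (z : Completion D) (x.W u) =
    inner ℂ (v : Completion D) (x.W ((x.dag a, bar f) :: u)) then h.2.choose else 0

open Classical in
/-- the similitudes on the new domain -/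
def Ud (s : ℝ) (L : Ix → V) (a : V) (v : x.Dn) : x.Dn :=
  if h : Ug c.Q s L a v ∈ x.Dn then ⟨_, h⟩ else v

/-- the covariance relation of the adjoint letters, on the vacuum -/
def Cv (a : Λ) (g : Sg) {n : ℕ} (κ : Fin n → ℂ) (b : Fin n → Λ) : Prop := ∀ f, IsTest f →
  x.φ (x.dag a) f = ∑ i, conj (κ i) • g.U c (x.φ (x.dag (b i)) (g.pull f))

/-- the letter `a` is the field `B` with adjoint `B'` -/
def Is (a : Λ) (B B' : Fld D) : Prop := c.Q.fld B ∧ c.Q.fld B' ∧ IsAdj B B' ∧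
  ∀ f, IsTest f → x.φ a f = (B f c.Q.vac : D) ∧ x.φ (x.dag a) f = (B' f c.Q.vac : D)

/-- finite sums of new fields with labels in `P` -/
def Fs (P : Λ → Prop) (B : Fld x.Dn) : Prop := ∃ (n : ℕ) (b : Fin n → Λ), (∀ i, P (b i)) ∧
  B = fun f v => ∑ i, x.o (b i) f v

end Lt

variable (x : Lt c Λ)

/-- row OPS: the letters act on the local vectors -/
structure OPS : Prop where
  d_vac : D1 c c.Om
  d_zero : D1 c 0
  d_add : ∀ v w, D1 c v → D1 c w → D1 c (v + w)
  d_smul : ∀ (z : ℂ) v, D1 c v → D1 c (z • v)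
  d_U : ∀ (g : Sg) v, D1 c v → D1 c (g.U c v)
  mem : ∀ a f v, In Set.univ f → D1 c v → D1 c (x.op a f v)
  add : ∀ a f v w, In Set.univ f → D1 c v → D1 c w → x.op a f (v + w) = x.op a f v + x.op a f w
  smul : ∀ a f (z : ℂ) v, In Set.univ f → D1 c v → x.op a f (z • v) = z • x.op a f v
  lin : ∀ a (f g : Fn) (z : ℂ) v, In Set.univ f → In Set.univ g → D1 c v →
    x.op a (fun y => f y + z * g y) v = x.op a f v + z • x.op a g v
  herm : ∀ a f v w, In Set.univ f → D1 c v → D1 c w →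
    inner ℂ (x.op a f v) w = inner ℂ v (x.op (x.dag a) (bar f) w)
  cov : ∀ a (g : Sg) n (κ : Fin n → ℂ) b f v, x.Cv a g κ b → In Set.univ f → D1 c v →
    x.op a f (g.U c v) = ∑ i, κ i • g.U c (x.op (b i) (g.pull f) v)
  loc : ∀ a b f g v, In Set.univ f → In Set.univ g → Sep f g → D1 c v →
    x.op a f (x.op b g v) = x.op b g (x.op a f v)
  aff : ∀ a B B' f v (w : D), x.Is a B B' → In Set.univ f → D1 c v → Cyc c.Q w →
    inner ℂ (x.op a f v) (w : Completion D) = inner ℂ v ((B' (bar f) w : D) : Completion D)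
  zero : ∀ n (κ : Fin n → ℂ) (b : Fin n → Λ) (f : Fin n → Fn) v, (∀ i, In Set.univ (f i)) →
    ∑ i, κ i • x.φ (b i) (f i) = 0 → D1 c v → ∑ i, κ i • x.op (b i) (f i) v = 0
  cont : ∀ a R v, D1 c v → Continuous fun f : Sch => x.op a (cutf R (ev f)) v
  vac : ∀ a f, In Set.univ f → x.op a f c.Om = x.φ a f

/-- the tools for the rows on words -/
structure E1 : Prop extends E0 c where
  ops : OPS x

/-- row JB: joint bounds for supports in the unit ball -/
def JB : Prop := ∀ (ls : List Λ) v, D1 c v → ∃ (m : ℕ) (C : ℝ), 0 ≤ C ∧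
  ∀ u : List (Λ × Sch), u.map Prod.fst = ls → ‖x.ap (cutw 0 (evw u)) v‖ ≤ C * snw m u

/-- row TMP: tempered bounds -/
def TMP : Prop := ∀ ls : List Λ, ∃ (m : ℕ) (C : ℝ), 0 ≤ C ∧
  ∀ u : List (Λ × Sch), u.map Prod.fst = ls → CW (evw u) → ‖x.ap (evw u) c.Om‖ ≤ C * snw m u

/-- row EXT: extension to Schwartz functions -/
structure EXT : Prop where
  lim : ∀ u, TW u → Tendsto (fun R => x.ap (cutw R u) c.Om) atTop (𝓝 (x.W u))
  cw : ∀ u, CW u → x.W u = x.ap u c.Om
  bd : ∀ ls : List Λ, ∃ (m : ℕ) (C : ℝ), 0 ≤ C ∧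
    ∀ u : List (Λ × Sch), u.map Prod.fst = ls → ‖x.W (evw u)‖ ≤ C * snw m u

/-- row FS (first part): the vector valued Wightman distributions -/
structure WP : Prop where
  nil : x.W [] = c.Om
  lin : ∀ a (f g : Fn) (z : ℂ) u, IsTest f → IsTest g → TW u →
    x.W ((a, fun y => f y + z * g y) :: u) = x.W ((a, f) :: u) + z • x.W ((a, g) :: u)
  cont : ∀ a u, TW u → Continuous fun g : Sch => x.W ((a, ev g) :: u)
  herm : ∀ a f u w, IsTest f → TW u → TW w →
    inner ℂ (x.W ((a, f) :: u)) (x.W w) = inner ℂ (x.W u) (x.W ((x.dag a, bar f) :: w))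
  loc : ∀ a b f g u, IsTest f → IsTest g → Sep f g → TW u →
    x.W ((a, f) :: (b, g) :: u) = x.W ((b, g) :: (a, f) :: u)
  aff : ∀ a B B' f u (w : D), x.Is a B B' → IsTest f → TW u → Cyc c.Q w →
    inner ℂ (x.W ((a, f) :: u)) (w : Completion D) =
      inner ℂ (x.W u) ((B' (bar f) w : D) : Completion D)

/-- row FS (second part): the new fields -/
structure FS : Prop where
  vac : c.Om ∈ x.Dn
  oW : ∀ a f u (v : x.Dn), IsTest f → TW u → (v : Completion D) = x.W u →
    (x.o a f v : Completion D) = x.W ((a, f) :: u)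
  add : ∀ a f v w, x.o a f (v + w) = x.o a f v + x.o a f w
  smul : ∀ a f (z : ℂ) v, x.o a f (z • v) = z • x.o a f v
  lin : ∀ a (f g : Fn) (z : ℂ) v, IsTest f → IsTest g →
    x.o a (fun y => f y + z * g y) v = x.o a f v + z • x.o a g v
  cont : ∀ a v, Continuous fun g : Sch => x.o a (ev g) v
  herm : ∀ a, IsAdj (x.o a) (x.o (x.dag a))
  loc : ∀ a b f g v, IsTest f → IsTest g → Sep f g → x.o a f (x.o b g v) = x.o b g (x.o a f v)
  aff : ∀ a B B' f (v : x.Dn) (w : D), x.Is a B B' → IsTest f → Cyc c.Q w →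
    inner ℂ (x.o a f v : Completion D) (w : Completion D) =
      inner ℂ (v : Completion D) ((B' (bar f) w : D) : Completion D)

/-- row CV: covariance and relations of the new fields -/
structure CV : Prop where
  mem : ∀ (g : Sg) v, v ∈ x.Dn → g.U c v ∈ x.Dn
  cov : ∀ a (g : Sg) n (κ : Fin n → ℂ) b f (v w : x.Dn), x.Cv a g κ b → IsTest f →
    (w : Completion D) = g.U c v →
    (x.o a f w : Completion D) = ∑ i, κ i • g.U c (x.o (b i) (g.pull f) v)
  zero : ∀ n (κ : Fin n → ℂ) (b : Fin n → Λ) (f : Fin n → Fn) v, (∀ i, In Set.univ (f i)) →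
    ∑ i, κ i • x.φ (b i) (f i) = 0 → ∑ i, κ i • x.o (b i) (f i) v = 0

/-- row REC: the new theory -/
def REC : Prop := ∀ P : Λ → Prop, (∀ a, P a → P (x.dag a)) →
  (∀ S : Submodule ℂ x.Dn, (∀ v : x.Dn, (v : Completion D) = c.Om → v ∈ S) →
    (∀ a f v, P a → IsTest f → v ∈ S → x.o a f v ∈ S) → Dense (S : Set x.Dn)) →
  ∃ Q' : Theory x.Dn, (Q'.vac : Completion D) = c.Om ∧ Q'.U = x.Ud ∧
    (∀ B, Q'.fld B ↔ x.Fs P B) ∧ ∀ B, Q'.bose B ↔ x.Fs P B

/-- the labels of fields -/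
structure Lb (Q : Theory D) where
  B : Fld D
  B' : Fld D
  h : Q.fld B
  h' : Q.fld B'
  a : IsAdj B B'

end

end Vale.Agent.P352X.EB.NA
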