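import Vale.Agent.P352NA.Defs
import Vale.Agent.P352X.EB.CH0

/-!
# P352NA: special conformal transformations of test functions, real exponents
-/

set_option linter.all false

open Filter Topology Set
open scoped ContDiff

namespace Vale.Agent.P352X.EB.NA

open Vale.Agent.P352.GF Vale.Agent.P352.H15
open Vale.Agent.P352.H246 (In)
open Ch0

noncomputable section

namespace Pe

variable {s t e e' : ℝ} {z : V} {f g : Fn}

@[simp] theorem pe_zero : pe e 0 f = f := funext fun z => by simp [pe]

theorem pe_pos (h : 0 < rh t z) : pe e t f z = ((rh t z ^ e : ℝ) : ℂ) * f (cph t z) := if_pos h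

theorem pe_neg (h : ¬ 0 < rh t z) : pe e t f z = 0 := if_neg h

theorem pe_pb (j : ℕ) : pe (-(j : ℝ)) t f = pb j t f := funext fun z => by
  simp only [pe, pb]
  split_ifs with h
  · rw [Real.rpow_neg h.le, Real.rpow_natCast, inv_pow]
  · rfl

theorem pe_pe (h : 0 < rh s z) : pe e s (pe e t f) z = pe e (s + t) f z := by
  simp only [pe, if_pos h, rh_cph h.ne', div_pos_iff_of_pos_right h]
  split_ifs with h'
  · rw [cph_cph h.ne' h'.ne', ← mul_assoc, ← Complex.ofReal_mul,
      ← Real.mul_rpow h.le (div_pos h' h).le, mul_div_cancel₀ _ h.ne']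
  · simp

theorem pe_eq_mul : pe e t f z = ((rh t z ^ e : ℝ) : ℂ) * pb 0 t f z := by
  simp only [pe, pb]
  split_ifs <;> simp

theorem mem_of_ne (h : pe e t f z ≠ 0) : 0 < rh t z ∧ cph t z ∈ tsupport f := by
  rw [pe_eq_mul] at h
  exact Ch0.mem_of_ne (right_ne_zero_of_mul h)

theorem img_of_ne (h : pe e t f z ≠ 0) : z ∈ cph (-t) '' tsupport f :=
  ⟨_, (mem_of_ne h).2, cph_inv (mem_of_ne h).1.ne'⟩

/-- multiplication by a function: `pe (e + e') t (q f) = (rh ^ e' q ∘ cph t) pe e t f` -/
theorem pe_mul (q : Fn) : pe (e + e') t (fun z => q z * f z) z =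
    ((rh t z ^ e' : ℝ) : ℂ) * q (cph t z) * pe e t f z := by
  simp only [pe]
  split_ifs with h
  · rw [Real.rpow_add h]
    push_cast
    ring
  · simp

theorem pe_add : pe e t (fun z => f z + g z) z = pe e t f z + pe e t g z := by
  simp only [pe]
  split_ifs
  · ring
  · simp

theorem pe_smul (a : ℂ) : pe e t (fun z => a * f z) z = a * pe e t f z := by
  simp only [pe]
  split_ifs
  · ring
  · simp

theorem pe_bar : bar (pe e t f) = pe e t (bar f) := funext fun z => by
  simp only [pe, bar]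
  split_ifs <;> simp

theorem smooth_pe (hf : Dc f) : ContDiff ℝ ∞ fun q : ℝ × V => pe e q.1 f q.2 := by
  obtain ⟨B, hB⟩ := hf.2.isCompact.exists_bound_of_continuousOn cont_be.continuousOn
  refine contDiff_iff_contDiffAt.2 fun q => ?_
  have c := smooth_rh.continuous
  rcases lt_or_ge 0 (rh q.1 q.2) with h | h
  · refine ((Complex.ofRealCLM.contDiff.contDiffAt.comp q
      (smooth_rh.contDiffAt.rpow_const_of_ne (p := e) h.ne')).mul
      (hf.1.contDiffAt.comp q (smooth_cph h.ne'))).congr_of_eventuallyEq ?_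
    filter_upwards [continuousAt_const.eventually_lt c.continuousAt h] with p hp using if_pos hp
  · refine (contDiffAt_const (c := 0)).congr_of_eventuallyEq ?_
    filter_upwards [ContinuousAt.eventually_lt (f := fun p : ℝ × V => rh p.1 p.2 *
      (1 + 2 * (|p.1| * |B|))) (by fun_prop) continuousAt_const
        ((mul_nonpos_of_nonpos_of_nonneg h (by positivity)).trans_lt one_pos)] with p hp
    by_contra h0
    obtain ⟨a, b⟩ := mem_of_ne h0
    have d := rh_inv a.ne'
    have e : |be (cph p.1 p.2)| ≤ |B| := (hB _ b).trans (le_abs_self B)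
    refine hp.not_ge ((inv_le_iff_one_le_mul₀' a).1 ?_)
    rw [← d, rh]
    have := neg_abs_le (p.1 * be (cph p.1 p.2))
    rw [abs_mul] at this
    linarith [mul_le_mul_of_nonneg_left e (abs_nonneg p.1)]

theorem inn (hf : Dc f) (h : Reg t f) :
    Dc (pe e t f) ∧ tsupport (pe e t f) ⊆ cph (-t) '' tsupport f := by
  have k : IsCompact (cph (-t) '' tsupport f) := by
    simpa [singleton_prod, image_image] using cpt (isCompact_singleton (x := t)) hf (by simpa using h)
  exact ⟨Api4.dc_of_zero ((smooth_pe hf).comp (contDiff_const.prodMk contDiff_id)) k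
    fun z hz => by_contra fun h0 => hz (img_of_ne h0), Ap.tsupp_sub k.isClosed fun z => img_of_ne⟩

theorem in_img {O : Set V} (hf : In O f) (h : Reg t f) :
    In (cph (-t) '' tsupport f) (pe e t f) :=
  Ap.in_of (inn (Ap.in_dc hf) h).1 (inn (Ap.in_dc hf) h).2

theorem in_be (hf : In {z | be z < 0} f) (h : Reg t f) : In {z | be z < 0} (pe e t f) := by
  refine Ap.in_of (inn (Ap.in_dc hf) h).1 ((inn (Ap.in_dc hf) h).2.trans ?_)
  rintro _ ⟨y, a, rfl⟩
  exact be_cph.trans_lt (div_neg_of_neg_of_pos (hf.2.2 a) (h y a))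

theorem inv (hf : Dc f) (h : Reg t f) : Reg (-t) (pe e t f) ∧ pe e (-t) (pe e t f) = f := by
  refine ⟨fun z hz => ?_, funext fun z => ?_⟩
  · obtain ⟨y, a, rfl⟩ := (inn hf h).2 hz
    rw [rh_inv (h y a).ne']
    exact inv_pos.2 (h y a)
  · by_cases hz : 0 < rh (-t) z
    · rw [pe_pe hz, neg_add_cancel, pe_zero]
    · rw [pe_neg hz, image_eq_zero_of_notMem_tsupport fun a => hz (h z a)]

theorem fam (hf : Dc f) : Api4.Fam {t | Reg t f} fun t => pe e t f := by
  refine ⟨reg_open hf, (smooth_pe hf).contDiffOn, fun t ht => ?_⟩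
  obtain ⟨N, n1, n2, n3⟩ := local_compact_nhds ((reg_open hf).mem_nhds ht)
  refine ⟨_, cpt n3 hf n2, mem_of_superset n1 fun s hs z hz => by_contra fun h0 => ?_⟩
  obtain ⟨y, a, b⟩ := img_of_ne h0
  exact hz ⟨(s, y), ⟨hs, a⟩, b⟩

theorem der_rh (t : ℝ) (z : V) : HasDerivAt (fun s => rh s z) (2 * be z) t := by
  simpa [rh] using (((hasDerivAt_id t).const_mul 2).mul_const (be z)).const_add 1

theorem der0 (hf : DifferentiableAt ℝ f z) :
    HasDerivAt (fun s => pe e s f z) (Kc (e + 4) f z) 0 := by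
  have r := der_rh 0 z
  have p : ∀ᶠ s in 𝓝 (0 : ℝ), 0 < rh s z :=
    continuousAt_const.eventually_lt r.continuousAt (by simp)
  have c := (((hasDerivAt_id (0 : ℝ)).fun_div r (by simp)).smul_const (cK va z)).const_sub z
  have d := (r.rpow_const (p := e) (.inl (by simp))).ofReal_comp.fun_mul
    (hf.hasFDerivAt.comp_hasDerivAt_of_eq 0 c (by simp))
  refine (d.congr_of_eventuallyEq (p.mono fun s hs => ?_)).congr_deriv ?_
  · simp only [pe, if_pos hs, cph_eq hs.ne', Function.comp, id]
  · rw [Kc, show ∑ m, (cK va z m : ℂ) * pd m f z = _ from Ap.dv_eq hf _]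
    simp
    ring

theorem der (hf : Dc f) : HasDerivAt (fun s => pe e s f z) (Kc (e + 4) (pe e t f) z) t := by
  have h := der0 (e := e) (z := z) (((smooth_pe (e := e) hf).comp
    ((contDiff_const (c := t)).prodMk contDiff_id)).differentiable (by simp) z)
  have p : ∀ᶠ s in 𝓝 t, 0 < rh (s - t) z :=
    continuousAt_const.eventually_lt (by unfold rh; fun_prop) (by simp)
  refine (HasDerivAt.comp_sub_const t t (sub_self t ▸ h)).congr_of_eventuallyEq
    (p.mono fun s hs => ?_)
  exact ((pe_pe hs).trans (by rw [sub_add_cancel])).symm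

/-- the derivative of the family in Schwartz space -/
theorem hasDerivAt {B : Type*} [NormedAddCommGroup B] [NormedSpace ℂ B] [CompleteSpace B]
    (hf : Dc f) (Λ : Sch →L[ℂ] B) (ht : Reg t f) :
    HasDerivAt (fun s => Λ (sch (pe e s f))) (Λ (sch (Kc (e + 4) (pe e t f)))) t := by
  have h := (fam (e := e) hf).hasDerivAt Λ ht
  rwa [funext fun z => (der (e := e) (t := t) (z := z) hf).deriv] at h

/-- regular parameters form an interval -/
theorem reg_of_le (hf : tsupport f ⊆ {z | be z < 0}) (h : Reg (-t) f) (hs : s ≤ t) :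
    Reg (-s) f := fun z hz => by
  have a := h z hz
  have b : be z < 0 := hf hz
  simp only [neg_neg, rh] at a ⊢
  nlinarith

theorem reg_mono (h : Reg t f) (k : tsupport g ⊆ tsupport f) : Reg t g := fun z hz => h z (k hz)

end Pe

end

end Vale.Agent.P352X.EB.NA
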