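import Vale.Agent.P352NA.JB
import Vale.Agent.P352X.EB.OPS

/-!
# P352NA, row OPS: the letters act on the local vectors
-/

set_option linter.all false

open MeasureTheory Filter Topology Set
open scoped SchwartzMap ComplexConjugate

namespace Vale.Agent.P352X.EB.NA

open Vale.Agent.P352 Vale.Agent.P352.GF Vale.Agent.P352.BW Vale.Agent.P352.H246
open Vale.Agent.P352.H496 Vale.Agent.P352.H755 Vale.Agent.P352.H15
open Vale.Agent.P352.SubConf (IsAdj)
open Vale.Agent.P352NA
open UniformSpace (Completion)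
open Bornology (IsBounded)

noncomputable section

variable {D : Type*} [NormedAddCommGroup D] [InnerProductSpace ℂ D] {c : Ctx D} {Λ : Type*}
  {K K' : Set V} {e e' : Bool} {ξ ξ' η η' v w : Completion D}

namespace Op

theorem d_wv {σ : List Bool} {u} (hK : IsCompact K) (h : Tw c K σ u) : D1 c (wv c u) :=
  Submodule.subset_span ⟨K, σ, u, hK, h, rfl⟩

theorem ind {P : Completion D → Prop} (h0 : P 0) (h1 : ∀ v w, D1 c v → D1 c w → P v → P w → P (v + w))
    (h2 : ∀ (z : ℂ) v, D1 c v → P v → P (z • v))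
    (h3 : ∀ K σ u, IsCompact K → Tw c K σ u → P (wv c u)) (hv : D1 c v) : P v :=
  Submodule.span_induction (p := fun v _ => P v)
    (by rintro _ ⟨K, σ, u, a, b, rfl⟩; exact h3 K σ u a b) h0 h1 h2 hv

variable (t : E2 c)
include t

theorem sh (n m : ℕ) : Sh c n m := fun K w h => let ⟨σ, _, a⟩ := h.ty; t.wrd K σ w h.cpt a

theorem ok {σ : List Bool} {u} (hK : IsCompact K) (h : Tw c K σ u) :
    Ok c (σ.count true) u.length K u := ⟨hK, ⟨σ, le_rfl, h⟩, le_rfl⟩

theorem key (hv : D1 c v) : ∃ K0, IsCompact K0 ∧ ∀ K e p, IsCompact K → Ty c K e p →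
    Rl c (K ∪ K0) p.2 v (ml c p.2 v) ∧ D1 c (ml c p.2 v) := by
  refine ind (P := fun v => ∃ K0, IsCompact K0 ∧ ∀ K e p, IsCompact K → Ty c K e p →
    Rl c (K ∪ K0) p.2 v (ml c p.2 v) ∧ D1 c (ml c p.2 v))
    ⟨∅, isCompact_empty, fun K e p hK _ => ?_⟩ ?_ ?_ (fun K0 σ u a b => ⟨K0, a, fun K e p hK h => ?_⟩)
    hv
  · rw [Mu1.eq t.sg hK.isBounded Rl.zero_r]
    exact ⟨Rl.zero_r, zero_mem _⟩
  · rintro v w - - ⟨K1, a1, b1⟩ ⟨K2, a2, b2⟩
    refine ⟨_, a1.union a2, fun K e p hK h => ?_⟩
    have := Rl.lin_r 1 (Rl.mono (b1 K e p hK h).1 (union_subset_union_right K subset_union_left))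
      (Rl.mono (b2 K e p hK h).1 (union_subset_union_right K (subset_union_right (s := K1))))
    simp only [one_smul] at this
    rw [Mu1.eq t.sg (hK.union (a1.union a2)).isBounded this]
    exact ⟨this, add_mem (b1 K e p hK h).2 (b2 K e p hK h).2⟩
  · rintro z v - ⟨K1, a1, b1⟩
    refine ⟨_, a1, fun K e p hK h => ?_⟩
    have := Rl.lin_r z Rl.zero_r (b1 K e p hK h).1
    simp only [zero_add] at this
    rw [Mu1.eq t.sg (hK.union a1).isBounded this]
    exact ⟨this, Submodule.smul_mem _ _ (b1 K e p hK h).2⟩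
  · have k : Tw c (K ∪ K0) (e :: σ) (p :: u) :=
      .cons (h.mono subset_union_left) (b.mono subset_union_right)
    exact ⟨(sh t _ _).step t.toE0 t.cov (ok t (hK.union a) k), d_wv (hK.union a) k⟩

theorem mem (hK : IsCompact K) (h : Ty c K e (ξ, ξ')) (hv : D1 c v) : D1 c (ml c ξ' v) :=
  let ⟨_, _, b⟩ := key t hv; (b K e _ hK h).2

theorem lin_r (hK : IsCompact K) (h : Ty c K e (ξ, ξ')) (z : ℂ) (hv : D1 c v) (hw : D1 c w) :
    ml c ξ' (v + z • w) = ml c ξ' v + z • ml c ξ' w := by
  obtain ⟨K1, a1, b1⟩ := key t hv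
  obtain ⟨K2, a2, b2⟩ := key t hw
  exact Mu1.eq t.sg (hK.union (a1.union a2)).isBounded (Rl.lin_r z
    (Rl.mono (b1 K e _ hK h).1 (union_subset_union_right K subset_union_left))
    (Rl.mono (b2 K e _ hK h).1 (union_subset_union_right K subset_union_right)))

theorem zero : ml c w 0 = 0 := Mu1.eq t.sg Bornology.isBounded_empty Rl.zero_r

theorem add (hK : IsCompact K) (h : Ty c K e (ξ, ξ')) (hv : D1 c v) (hw : D1 c w) :
    ml c ξ' (v + w) = ml c ξ' v + ml c ξ' w := by simpa using lin_r t hK h 1 hv hw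

theorem smul (hK : IsCompact K) (h : Ty c K e (ξ, ξ')) (z : ℂ) (hv : D1 c v) :
    ml c ξ' (z • v) = z • ml c ξ' v := by simpa [zero t] using lin_r t hK h z (zero_mem _) hv

theorem herm (hK : IsCompact K) (h : Ty c K e (ξ, ξ')) (hv : D1 c v) (hw : D1 c w) :
    inner ℂ (ml c ξ' v) w = inner ℂ v (ml c ξ w) := by
  have h' : Ty c K e (ξ', ξ) := h.swap
  refine ind (P := fun v => inner ℂ (ml c ξ' v) w = inner ℂ v (ml c ξ w)) (by simp [zero t])
    (fun _ _ a b x y => by rw [add t hK h a b, inner_add_left, inner_add_left, x, y])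
    (fun z _ a x => by rw [smul t hK h z a, inner_smul_left, inner_smul_left, x])
    (fun K1 σ u a b => ?_) hv
  refine ind (P := fun w => inner ℂ (ml c ξ' (wv c u)) w = inner ℂ (wv c u) (ml c ξ w))
    (by simp [zero t])
    (fun _ _ a b x y => by rw [add t hK h' a b, inner_add_right, inner_add_right, x, y])
    (fun z _ a x => by rw [smul t hK h' z a, inner_smul_right, inner_smul_right, x])
    (fun K2 τ u' a' b' => ?_) hw
  have k := (hK.union a).union a'
  have s := t.wrd _ _ _ k ((Tw.rev (.cons (h.mono (subset_union_left.trans subset_union_left))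
    (b.mono (subset_union_right.trans subset_union_left)))).append (b'.mono subset_union_right))
  have s1 := Rl.inner t.sg k.isBounded (s _ _ rfl)
  have s2 := Rl.inner t.sg k.isBounded (s (rv u) ((ξ', ξ) :: u') (by simp [rv_cons]))
  rw [rv_rv] at s1 s2
  exact s1.symm.trans s2

theorem loc (hK : IsCompact K) (hK' : IsCompact K') (s : Sl K K') (h : Ty c K e (ξ, ξ'))
    (h' : Ty c K' e' (η, η')) (hv : D1 c v) : ml c ξ' (ml c η' v) = ml c η' (ml c ξ' v) := by
  refine ind (P := fun v => ml c ξ' (ml c η' v) = ml c η' (ml c ξ' v)) (by simp [zero t])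
    (fun _ _ a b x y => by rw [add t hK h a b, add t hK' h' a b, add t hK h (mem t hK' h' a)
      (mem t hK' h' b), add t hK' h' (mem t hK h a) (mem t hK h b), x, y])
    (fun z _ a x => by rw [smul t hK h z a, smul t hK' h' z a, smul t hK h z (mem t hK' h' a),
      smul t hK' h' z (mem t hK h a), x]) (fun K1 σ u a b => ?_) hv
  have k := (hK.union hK').union a
  have x := h.mono (K' := K ∪ K' ∪ K1) (subset_union_left.trans subset_union_left)
  have y := h'.mono (K' := K ∪ K' ∪ K1) (subset_union_right.trans subset_union_left)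
  have z := b.mono (K' := K ∪ K' ∪ K1) subset_union_right
  have s1 := t.wrd _ _ _ k (.cons x (.cons y z)) [_, _] u rfl
  have s2 := t.wrd _ _ _ k (.cons y (.cons x z)) [_, _] u rfl
  rw [show rv [(ξ, ξ'), (η, η')] = [(η, η').swap, (ξ, ξ').swap] from rfl,
    ← t.loc K K' e e' _ _ hK hK' s h.swap h'.swap] at s1
  exact Rl.uniq t.sg k.isBounded s1 s2

theorem d_U (g : Sg) (hv : D1 c v) : D1 c (g.U c v) :=
  ind (P := fun v => D1 c (g.U c v)) (by rw [map_zero]; exact zero_mem _)
    (fun _ _ _ _ x y => by rw [map_add]; exact add_mem x y)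
    (fun z _ _ x => by rw [map_smul]; exact Submodule.smul_mem _ _ x)
    (fun K σ u a b => by
      rw [← (sh t _ _).wv_U t.toE0 t.cov (ok t a b)]
      exact d_wv (a.image g.cont) (b.U t.toE0 t.cov g)) hv

omit t in
theorem rl_sum (s : SG c) {ι : Type*} (S : Finset ι) (κ : ι → ℂ) {ξ ζ : ι → Completion D}
    (h : ∀ i, ∃ K, IsBounded K ∧ Rl c K (ξ i) v (ζ i)) :
    ∃ K, IsBounded K ∧ Rl c K (∑ i ∈ S, conj (κ i) • ξ i) v (∑ i ∈ S, κ i • ζ i) := by
  classical
  induction S using Finset.induction_on with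
  | empty => exact ⟨∅, Bornology.isBounded_empty, Rl.zero_l⟩
  | insert i S hi ih =>
    obtain ⟨K, a, b⟩ := ih
    obtain ⟨K', a', b'⟩ := h i
    simp only [Finset.sum_insert hi, add_comm (_ • _)]
    exact ⟨_, a.union a', Rl.lin_l _ (Rl.mono b subset_union_left) (Rl.mono b' subset_union_right)⟩

omit t in
theorem cq {f : Fn} (hf : In univ f) : IsCompact (tsupport f) := hf.2.1

omit t in
theorem ty (x : Lt c Λ) (a : Λ) {f : Fn} (hf : In univ f) :
    Ty c (tsupport f) (x.ty a).choose (x.φ a f, x.φ (x.dag a) (bar f)) :=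
  (x.ty a).choose_spec _ f (Ops.in_self hf)

theorem rl (x : Lt c Λ) (a : Λ) {f : Fn} (hf : In univ f) (hv : D1 c v) :
    ∃ K, IsBounded K ∧ Rl c K (x.φ (x.dag a) (bar f)) v (x.op a f v) :=
  let ⟨_, a1, b⟩ := key t hv
  ⟨_, ((cq hf).union a1).isBounded, (b _ _ _ (cq hf) (ty x a hf)).1⟩

theorem op_lin (x : Lt c Λ) (a : Λ) {f g : Fn} (z : ℂ) (hf : In univ f) (hg : In univ g)
    (hv : D1 c v) : x.op a (fun y => f y + z * g y) v = x.op a f v + z • x.op a g v := by
  have e : bar (fun y => f y + z * g y) = fun y => bar f y + conj z * bar g y := by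
    funext y; simp [bar]
  obtain ⟨K, a1, b⟩ := rl t x a hf hv
  obtain ⟨K', a2, b'⟩ := rl t x a hg hv
  rw [Lt.op, e, x.lin _ _ _ _ hf.bar.1 hg.bar.1]
  exact Mu1.eq t.sg (a1.union a2)
    (Rl.lin_l _ (Rl.mono b subset_union_left) (Rl.mono b' subset_union_right))

theorem op_herm (x : Lt c Λ) (a : Λ) {f : Fn} (hf : In univ f) (hv : D1 c v) (hw : D1 c w) :
    inner ℂ (x.op a f v) w = inner ℂ v (x.op (x.dag a) (bar f) w) := by
  unfold Lt.op
  rw [x.dag2, Ap.bar_bar]
  exact herm t (cq hf) (ty x a hf) hv hw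

theorem op_cont (x : Lt c Λ) (a : Λ) (R : ℕ) (hv : D1 c v) :
    Continuous fun f : Sch => x.op a (cutf R (ev f)) v := by
  have hi : ∀ f : Sch, In (Metric.closedBall 0 (2 * ((R : ℝ) + 1))) (cutf R (ev f)) := fun f =>
    Ap.in_mono (t.ana.inn R _ (Ap.test_ev f)) inter_subset_right
  let Ψ := JBp.mkL (fun f => x.op a (cutf R (ev f)) v) fun f g z => by
    rw [← op_lin t x a z (Ap.in_univ' (hi f)) (Ap.in_univ' (hi g)) hv]
    congr 1
    funext y
    simp [cutf, ev]
    ring
  obtain ⟨K, hK, hL⟩ := key t hv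
  have hB := isCompact_closedBall (0 : V) (2 * ((R : ℝ) + 1))
  obtain ⟨g, hg⟩ := t.sg.ex _ (hB.union hK).isBounded
  have hZ : Dense (g.inv.U c '' {z | ∃ Y ∈ (M0 c).commutant, Y c.Om = z}) :=
    DenseRange.dense_image (Function.Surjective.denseRange fun z => ⟨_, Ops.inv_U_app t.toE0 g z⟩)
      (g.inv.U c).continuous t.sg.dense
  haveI := t.ana.barr
  refine cont_of_weak Ψ hZ ?_
  rintro _ ⟨_, ⟨Y, hY, rfl⟩, rfl⟩
  obtain ⟨P, hP⟩ := t.ana.clm R
  let B : Sch →L[ℝ] Sch := SchwartzMap.postcompCLM (𝕜 := ℝ) Complex.conjCLE.toContinuousLinearMap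
  have hB' : ∀ f, ev (B f) = bar (ev f) := fun f => rfl
  have e : ∀ f : Sch, inner ℂ (g.inv.U c (Y c.Om)) (Ψ f) =
      inner ℂ (Y (g.U c (x.φ (x.dag a) (ev (B (P f)))))) (g.U c v) := by
    intro f
    have h1 := (hL _ _ _ hB ((x.ty a).choose_spec _ _ (hi f))).1 g hg Y hY
    rw [hB', hP, ← h1, t.sg.U_inv, ContinuousLinearMap.star_eq_adjoint,
      ContinuousLinearMap.adjoint_inner_left]
    rfl
  simp only [e]
  exact (Y.continuous.comp ((g.U c).continuous.comp ((x.cont (x.dag a)).comp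
    (B.continuous.comp P.continuous)))).inner continuous_const

theorem cont_adj {Y Y' : D → D} (h : ∀ v w, inner ℂ (Y v) w = inner ℂ v (Y' w)) {A : Fld D}
    (hA : c.Q.fld A) (y : D) : Continuous fun g : Sch => ((Y' (A (ev g) y) : D) : Completion D) := by
  have l := adj_lin (X := Y') (X' := Y) fun v w => by rw [← inner_conj_symm, ← h, inner_conj_symm]
  haveI := t.ana.barr
  refine cont_of_weak (JBp.mkL (fun g => ((Y' (A (ev g) y) : D) : Completion D)) fun f g z => by
    rw [show ev (f + z • g) = fun x => ev f x + z * ev g x from rfl,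
      c.Q.lin A _ _ z y hA ⟨f, rfl⟩ ⟨g, rfl⟩, l.1, l.2, Completion.coe_add, Completion.coe_smul])
    Completion.denseRange_coe ?_
  rintro _ ⟨u, rfl⟩
  show Continuous fun g : Sch => inner ℂ (u : Completion D) ((Y' (A (ev g) y) : D) : Completion D)
  simp only [Completion.inner_coe, ← h]
  exact continuous_const.inner (c.Q.cont A y hA)

theorem ml_coe {B B' : Fld D} {f : Fn} (a : c.Q.fld B) (b : c.Q.fld B') (d : IsAdj B B')
    (hf : In univ f) (y : D) : ml c (B' (bar f) c.Q.vac : D) y = (B f y : D) :=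
  Mu1.eq t.sg (cq hf).isBounded (rl_afs t.toE0
    (t.grp.affa _ _ _ (.fld B B' f _ _ a b d (Ops.in_self hf) .one)) y)

theorem d_al {X X' : D → D} (h : Al c.Q univ X X') : ∀ y : D, D1 c y → D1 c (X' y : D) := by
  induction h with
  | one => exact fun _ h => h
  | add _ _ _ _ _ _ a b => exact fun y h => by rw [Completion.coe_add]; exact add_mem (a y h) (b y h)
  | smul z _ _ _ a =>
    exact fun y h => by rw [Completion.coe_smul]; exact Submodule.smul_mem _ _ (a y h)
  | fld A B g _ _ a b d hg _ k =>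
    refine fun y h => k _ ?_
    rw [← ml_coe t b a (H755.adj_symm d) hg.bar]
    exact mem t (cq hg.bar) (e := false) (Tr.fld B A _ b a (H755.adj_symm d) (Ops.in_self hg.bar)) h

theorem aff {B B' : Fld D} {f : Fn} (a : c.Q.fld B) (b : c.Q.fld B') (d : IsAdj B B')
    (hf : In univ f) (hv : D1 c v) {y : D} (hy : Cyc c.Q y) :
    inner ℂ (ml c (B' (bar f) c.Q.vac : D) v) (y : Completion D) =
      inner ℂ v ((B' (bar f) y : D) : Completion D) := by
  have l : ∀ {X X'}, Al c.Q univ X X' → (∀ v w, X' (v + w) = X' v + X' w) ∧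
      ∀ (z : ℂ) v, X' (z • v) = z • X' v := fun h => adj_lin fun v w => by
    rw [← inner_conj_symm, ← (t.grp.affa _ _ _ h).1, inner_conj_symm]
  have l' := l (.fld B B' f _ _ a b d hf .one)
  let S : Submodule ℂ D :=
    { carrier := {y | ∀ X X', Al c.Q univ X X' → inner ℂ (ml c (B' (bar f) c.Q.vac : D) v)
        ((X' y : D) : Completion D) = inner ℂ v ((B' (bar f) (X' y) : D) : Completion D)}
      add_mem' := fun h h' X X' k => by
        simp only [(l k).1, l'.1, Completion.coe_add, inner_add_right, h X X' k, h' X X' k]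
      zero_mem' := fun X X' k => by
        have a := (l k).2 0 0
        have b := l'.2 0 0
        simp only [zero_smul] at a b
        simp [a, b, Completion.coe_zero]
      smul_mem' := fun z _ h X X' k => by
        simp only [(l k).2, l'.2, Completion.coe_smul, inner_smul_right, h X X' k] }
  refine hy S (fun X X' k => ?_) ?_ (fun v => v) (fun v => v) .one
  · have y : Ty c (tsupport f) false (((B f c.Q.vac : D) : Completion D),
        ((B' (bar f) c.Q.vac : D) : Completion D)) := Tr.fld B B' f a b d (Ops.in_self hf)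
    have z := ml_coe t b a (H755.adj_symm d) hf.bar (X' c.Q.vac)
    rw [Ap.bar_bar] at z
    rw [← z]
    exact herm t (cq hf) y hv (d_al t k _ (d_wv isCompact_empty (u := []) .nil))
  rintro A _ u hA ⟨G, rfl⟩ hu X X' k
  obtain ⟨A', hA', d'⟩ := c.Q.adj A hA
  have k1 := (t.grp.affa _ _ _ k).1
  have c1 := (cont_adj t k1 hA u).tendsto G
  have c2 := (cont_adj t (Y := fun v => X (B f v)) (Y' := fun v => B' (bar f) (X' v))
    (fun v w => by rw [k1, d f _ _ hf.1]) hA u).tendsto G
  refine tendsto_nhds_unique (tendsto_const_nhds.inner (c1.comp (t.ana.lim G)))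
    ((tendsto_const_nhds.inner (c2.comp (t.ana.lim G))).congr fun R => ?_)
  have i := Ap.in_univ' (t.ana.inn R _ (Ap.test_ev G))
  have := hu _ _ (.fld A' A _ X X' hA' hA (H755.adj_symm d') i.bar k)
  simp only [Ap.bar_bar] at this
  simp only [Function.comp_apply, Ap.ev_sch i.1]
  exact this.symm

end Op

open Op in
/-- row OPS -/
theorem ops_row (t : E2 c) (x : Lt c Λ) : OPS x where
  d_vac := d_wv isCompact_empty .nil
  d_zero := zero_mem _
  d_add := fun _ _ => add_mem
  d_smul := fun z _ => Submodule.smul_mem _ z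
  d_U := fun g _ => d_U t g
  mem := fun a f v hf => mem t (cq hf) (ty x a hf)
  add := fun a f v w hf => add t (cq hf) (ty x a hf)
  smul := fun a f z v hf => smul t (cq hf) (ty x a hf) z
  lin := fun a f g z v => op_lin t x a z
  herm := fun a f v w => op_herm t x a
  cov := fun a g n κ b f v h hf hv => by
    obtain ⟨K, a1, a2⟩ := rl_sum t.sg Finset.univ κ fun i =>
      let ⟨K, b1, b2⟩ := rl t x (b i) (Ap.in_univ' (t.sg.inn g _ f hf)) hv
      ⟨_, t.sg.bdd g K b1, Rl.U t.sg b2 g⟩
    rw [Lt.op, h _ hf.bar.1]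
    exact Mu1.eq t.sg a1 a2
  loc := fun a b f g v hf hg s => loc t (cq hf) (cq hg) s (ty x a hf) (ty x b hg)
  aff := fun a B B' f v w h hf hv hw => by
    rw [Lt.op, (h.2.2.2 _ hf.bar.1).2]
    exact aff t h.1 h.2.1 h.2.2.1 hf hv hw
  zero := fun n κ b f v hf h hv => by
    have m : D1 c (∑ i, κ i • x.op (b i) (f i) v) := Submodule.sum_mem _ fun i _ =>
      Submodule.smul_mem _ _ (mem t (cq (hf i)) (ty x _ (hf i)) hv)
    obtain ⟨K, a1, a2⟩ := rl_sum t.sg Finset.univ (fun i => conj (κ i)) fun i =>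
      rl t x (x.dag (b i)) (hf i).bar m
    simp only [Complex.conj_conj, x.dag2, Ap.bar_bar, h] at a2
    have := congrArg (inner ℂ v) (Rl.uniq t.sg a1 a2 Rl.zero_l)
    rw [inner_zero_right, inner_sum] at this
    refine inner_self_eq_zero.1 (Eq.trans ?_ this)
    nth_rewrite 1 [sum_inner]
    exact Finset.sum_congr rfl fun i _ => by
      rw [inner_smul_left, inner_smul_right, op_herm t x _ (hf i) hv m]
  cont := fun a R v => op_cont t x a R
  vac := fun a f hf => by
    have := Ty.rl t.toE0 t.cov (ty x a hf)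
    dsimp only at this
    exact Mu1.eq t.sg (cq hf).isBounded this

end

end Vale.Agent.P352X.EB.NA
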