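import Vale.Agent.P352NA.FIN
import Vale.Agent.P352X.EH.W
import Vale.Agent.P352X.EB.Wire

/-!
# P352NA: from the rows to the theorem
-/

set_option linter.all false

open Filter Topology

namespace Vale.Agent.P352X.EB.NA

open Vale.Agent.P352 Vale.Agent.P352.GF Vale.Agent.P352.BW Vale.Agent.P352.H246
open Vale.Agent.P352.H496 Vale.Agent.P352.H755 Vale.Agent.P352.H15
open Vale.Agent.P352.SubConf (IsAdj)
open Vale.Agent.P352NA
open UniformSpace (Completion)

noncomputable section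

universe u

variable {D : Type u} [NormedAddCommGroup D] [InnerProductSpace ℂ D]

theorem ee_thm (c : Ctx D) [Fact c.tp] : EE c :=
  have t := t3_thm c
  have bb := bb_of c t
  have far := far_row c t
  ee_row c t bb (dd_row c t (d1_row c t (sch_row c t) (yz_row c t (res_row c t) far
    (ix_row c t far) (cont_row c t far (conm_row c t) (conk_row0 c t (bp0_row c t bb)))
      (ib_row c t) (sw_row c t))))

section ext

variable {c : Ctx D} {D' : Submodule ℂ (Completion D)} {Q' : Theory D'} {e : Fld D → Fld D'}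
  (t : E0 c) (E : Ext0 c.Q Q' e)
include t E

theorem ext_gm : CA.GM Q' := by
  have h2 : ∀ (g : Sg) (z : D'), (Q'.U g.s g.L g.a z : Completion D) = g.U c z := fun g z =>
    (E.U _ _ _ z g.hs g.hL).trans (Ug_apply _ g.hs g.hL _ _).symm
  refine ⟨fun s L a s' L' a' v hs hs' hL hL' => Subtype.ext ?_, fun v w => ?_⟩
  · rw [h2 ⟨s, L, a, hs, hL⟩, h2 ⟨s', L', a', hs', hL'⟩]
    exact ((h2 (Sg.mul ⟨s, L, a, hs, hL⟩ ⟨s', L', a', hs', hL'⟩) v).trans
      (DFunLike.congr_fun (t.sg.U_mul _ _) _)).symm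
  · have h1 := CA.mix_ctx c v w
    rw [← E.vac, ← Submodule.coe_inner, ← Submodule.coe_inner] at h1
    refine h1.congr' (eventually_nhdsWithin_of_forall fun r hr => ?_)
    obtain ⟨p1, p2⟩ := CA.lsc_pos hr
    show inner ℂ _ (Ue _ _ _ _ _) = _
    rw [← E.U _ _ _ _ p1 p2]
    rfl

variable (hc : COV c) {Q'' : Theory D'} (n : IsEnl Q' Q'')
include hc n

/-- scaling laws pass to the extension -/
theorem ext_scl {B : Fld D} (hB : c.Q.fld B) {F : Finset (ℂ × ℕ)} {C : ℂ × ℕ → Fld D}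
    (h : Scl c.Q B F C) : Scl Q'' (e B) F fun p => e (C p) := by
  have b := fun p => n.bose _ (E.fld _ (h.1 p).1)
  refine ⟨fun p => ⟨Q''.bose_fld _ (b p), fun _ => b p⟩, fun s f v hs hf => ?_⟩
  rw [n.U, ← Finset.sum_coe_sort]
  exact ext_cov t hc E ⟨s, _, 0, hs, H496.isLor_one⟩ hB (fun i : F => (h.1 i).1) (fun g w hg =>
    (h.2 s g w hs hg).trans (Finset.sum_coe_sort _ _).symm) hf v

theorem desc_fld (hG : MfAll c.Q) (hF : FSL c.Q) {τ : Ix → Ix → Fld D'}
    (h : ∀ (k : Rp) (Φ : Fin k.n → Fld D') μ, (∀ ν, ∃ F B, Scl Q'' (Φ ν) F B) →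
      IsMl Q'' k Φ → (∀ a, Q''.bose (Φ a)) → DescS Q'' id τ false (Φ μ)) {B : Fld D}
    (hB : c.Q.fld B) : ∃ (m : ℕ) (C : Fin m → Fld D'), (∀ i, DescS Q'' id τ false (C i)) ∧
      ∀ f v, IsTest f → e B f v = ∑ i, C i f v := by
  obtain ⟨m, C, h1, h2⟩ := hG B hB
  choose k Φ a hΦ eq using h1
  have hC : ∀ i, c.Q.fld (C i) := fun i => eq i ▸ (hΦ i).1 _
  refine ⟨m, fun i => e (C i), fun i => ?_, fun f v hf => ext_C c.Q fun y hy => ?_⟩
  · simp only [eq]
    refine h _ (fun b => e (Φ i b)) _ (fun b => ?_) (fun b L f v hL hf => ?_)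
      fun b => n.bose _ (E.fld _ ((hΦ i).1 b))
    · obtain ⟨F, C, h3⟩ := hF _ ((hΦ i).1 b)
      exact ⟨F, _, ext_scl t E hc n ((hΦ i).1 b) h3⟩
    · rw [n.U]
      exact ext_cov t hc E ⟨1, L, 0, one_pos, hL⟩ ((hΦ i).1 b) (hΦ i).1
        (fun g w hg => (hΦ i).2 b L g w hL hg) hf v
  · obtain ⟨B', b, d⟩ := c.Q.adj B hB
    choose C' b' d' using fun i => c.Q.adj _ (hC i)
    have : B' (bar f) y = ∑ i, C' i (bar f) y := ext_inner_left ℂ fun z => by
      rw [← d f z y hf, h2 f z hf, sum_inner, inner_sum]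
      exact Finset.sum_congr rfl fun i _ => d' i f z y hf
    rw [ext_aff E hB b d hf v hy, this, STRa.coe_sum, inner_sum, Submodule.coe_sum, sum_inner]
    exact Finset.sum_congr rfl fun i _ => (ext_aff E (hC i) (b' i) (d' i) hf v hy).symm

end ext

theorem tl_id (k : CA.G.Cx D) (h : k.G = id) : CA.G.Tl k := fun A B hA hB a => by
  have e1 : ∀ f v, IsTest f → A f v = 0 := fun f v hf => by
    have := hA.2 f v hf
    rw [h] at this
    exact (smul_eq_zero.1 ((two_smul ℂ _).trans (add_eq_zero_iff_eq_neg.2 this))).resolve_left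
      two_ne_zero
  have e2 : ∀ f v, IsTest f → B f v = 0 := fun f v hf => ext_inner_right ℂ fun w => by
    rw [H755.adj_symm a f v w hf, e1 _ _ (isTest_bar hf), inner_zero_left, inner_zero_right]
  have z := (CA.G.clm_row k).zero
  rw [h]
  exact ⟨(CA.G.clm_row k).cg 0 0 _ _ z.toC0 (fun f v hf => e1 f v hf.1) fun f v hf => e2 f v hf.1,
    fun y f v hf => k.Q.transl A y f v hA.1 hf.1, fun y f v hf => k.Q.transl B y f v hB hf.1⟩

theorem final_of (pf : ∀ c : Ctx D, N0 c → COV c → PF c) (rig : ∀ ι : Type u, RIG ι)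
    (Q : Theory D) (T : Ix → Ix → Fld D) (hT : Stress0 Q T) (A : (V → V) → D → D)
    (hA : ND.PCh Q T A) (hG : TfGen Q) (hM : MfAll Q) (hF : FSL Q) (hL : NoLog Q T)
    (N : Set V → VonNeumannAlgebra (Completion D)) (hN : LNm Q A N) (hU : L.UVac Q) :
    ∃ T', Q.IsStress T' ∧ ND.PCh Q T' A ∧
    ∃ (D' : Submodule ℂ (Completion D)) (Q' : Theory D') (e : Fld D → Fld D') (L : Fld D'),
      Ext0 Q Q' e ∧ AfW N Q' (↑) ∧ Q'.IsStress (fun m n => e (T' m n)) ∧ Q'.IsScalar L 2 ∧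
      (∀ f v, IsTest f → tr (fun m n => e (T' m n)) f v = (3 : ℂ) • L (box f) v) ∧
      ∀ Q'' : Theory D', IsEnl Q' Q'' → IsImpr Q'' (fun m n => e (T' m n))
        (improve (fun m n => e (T' m n)) L) ∧ ConfAct Q'' (improve (fun m n => e (T' m n)) L) ∧
        CFS Q'' id (improve (fun m n => e (T' m n)) L) ∧
        ∀ B, Q'.fld B → ∃ (n : ℕ) (C : Fin n → Fld D'),
          (∀ i, DescS Q'' id (improve (fun m n => e (T' m n)) L) false (C i)) ∧
          ∀ f v, IsTest f → B f v = ∑ i, C i f v := by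
  obtain ⟨T', a1, -, a3⟩ := CL.fssL (Fss.G.m1_rep hN.toRep) hF hT hL
  have a2 := (a3 A hN.toRep hA).1
  refine ⟨T', a1, a2, ?_⟩
  obtain ⟨c, rfl, rfl, rfl, tp⟩ := EG.Pt.ctxN Q T' A N a1 a2 hG hN hU
  haveI : Fact c.tp := ⟨tp⟩
  have t := e0_thm c (main c).1
  have t0 : N0 c := ⟨t, ee_thm c, hM, hF⟩
  have hc := cov_row t0
  have p := pf c t0 hc
  obtain ⟨D', Q', e, L, h1, h0, h2, h3, h4, h6⟩ :=
    fin_row ⟨t, hc, wrd_row t hc p rig, loc_row t hc p rig⟩
  refine ⟨D', Q', e, L, h1, h0, h2, h3, h4, fun Q'' n => ?_⟩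
  obtain ⟨h7, h8⟩ := scal_row D' Q' _ L h2 h3 h4 Q'' n
  have hT'' := H746.isStress_enl n h2
  have g := (ext_gm t h1).enl n
  let k : CA.G.Cx D' := ⟨Q'', _, id, isT_of_impr h7 hT'',
    fun m n k l f g v hf hg h => sub_eq_zero.1 (h7.self m n k l f g v hf hg h), h7.cov,
    ⟨_, hT''.bose o o⟩, fun _ => rfl, fun _ _ => rfl, fun _ _ _ _ _ => rfl, fun _ _ _ _ _ _ => rfl,
    fun C hC => ⟨1, fun _ => 1, fun _ => C, fun _ => hC, fun g v _ => by simp⟩,
    fun s L a s' L' a' hs hs' hL hL' => .inl fun v => g.mul s L a s' L' a' v hs hs' hL hL',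
    fun F w _ => g.mix w _⟩
  obtain ⟨x, f0, al⟩ := CA.G.all_thm k
  have tl := tl_id k rfl
  have cf : CFS Q'' id (improve (fun m n => e (c.T m n)) L) := CA.G.cfs' al tl
  refine ⟨h7, h8, cf, fun B hB => ?_⟩
  obtain ⟨m, C, hC, h⟩ := h6 B hB
  have key : ∀ i, ∃ (r : ℕ) (C' : Fin r → Fld D'),
      (∀ j, DescS Q'' id (improve (fun m n => e (c.T m n)) L) false (C' j)) ∧
      ∀ f v, IsTest f → C i f v = ∑ j, C' j f v := fun i => by
    rcases hC i with h | ⟨C', a, b⟩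
    · exact ⟨1, fun _ => L, fun _ => EG.desc_scal cf (scalar_enl n h3), fun _ _ _ => by simp [h]⟩
    · obtain ⟨r, C'', a1, a2⟩ := desc_fld t h1 hc n hM hF (CA.G.descM al tl false) a
      exact ⟨r, C'', a1, fun f v hf => (b f v hf).trans (a2 f v hf)⟩
  choose r C' b1 b2 using key
  let E := (Fintype.equivFin (Σ i, Fin (r i))).symm
  refine ⟨_, fun j => C' (E j).1 (E j).2, fun j => b1 _ _, fun f v hf => (h f v).trans ?_⟩
  rw [E.sum_comp fun j => C' j.1 j.2 f v, Fintype.sum_sigma]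
  exact Finset.sum_congr rfl fun i _ => b2 i f v hf

end

end Vale.Agent.P352X.EB.NA
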