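import Vale.Agent.P352NA.LB

/-!
# P352NA: short words
-/

set_option linter.all false

open Filter Topology
open scoped ComplexConjugate

namespace Vale.Agent.P352X.EB.NA

open Vale.Agent.P352 Vale.Agent.P352.GF Vale.Agent.P352.BW Vale.Agent.P352.H246
open Vale.Agent.P352.H496 Vale.Agent.P352.H755 Vale.Agent.P352.H15
open Vale.Agent.P352.SubConf (IsAdj)
open UniformSpace (Completion)
open Bornology (IsBounded)

noncomputable section

variable {D : Type*} [NormedAddCommGroup D] [InnerProductSpace ℂ D] {c : Ctx D}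
  {K K' : Set V} {ξ ξ' η η' ζ ζ' : Completion D} {σ τ : List Bool} {n m : ℕ}
  {u v w : List (Completion D × Completion D)} {p q r : Completion D × Completion D}

/-- words with at most `n` potentials and at most `m` letters -/
structure Ok (c : Ctx D) (n m : ℕ) (K : Set V) (w : List (Completion D × Completion D)) : Prop where
  cpt : IsCompact K
  ty : ∃ σ, σ.count true ≤ n ∧ Tw c K σ w
  len : w.length ≤ m

/-- all short words split -/
def Sh (c : Ctx D) (n m : ℕ) : Prop := ∀ K w, Ok c n m K w → Sp c K w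

namespace Ok

theorem mono (h : Ok c n m K w) (hK : IsCompact K') (e : K ⊆ K') : Ok c n m K' w :=
  ⟨hK, h.ty.imp fun _ a => ⟨a.1, a.2.mono e⟩, h.len⟩

theorem take (h : Ok c n m K w) (i : ℕ) : Ok c n (min i m) K (w.take i) :=
  ⟨h.cpt, let ⟨σ, a, b⟩ := h.ty; ⟨σ.take i, ((List.take_sublist _ _).count_le _).trans a, b.take i⟩,
    by rw [List.length_take]; exact min_le_min_left _ h.len⟩

theorem drop (h : Ok c n m K w) (i : ℕ) : Ok c n (m - i) K (w.drop i) :=
  ⟨h.cpt, let ⟨σ, a, b⟩ := h.ty; ⟨σ.drop i, ((List.drop_sublist _ _).count_le _).trans a, b.drop i⟩,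
    by rw [List.length_drop]; exact Nat.sub_le_sub_right h.len _⟩

theorem le {m' : ℕ} (h : Ok c n m K w) (e : w.length ≤ m') : Ok c n m' K w := ⟨h.cpt, h.ty, e⟩

theorem left (h : Ok c n m K (u ++ v)) : Ok c n m K u := by
  have := h.take u.length
  rw [List.take_left] at this
  exact this.le (this.len.trans (min_le_right _ _))

theorem right (h : Ok c n m K (u ++ v)) : Ok c n m K v := by
  have := h.drop u.length
  rw [List.drop_left] at this
  exact this.le (this.len.trans (Nat.sub_le _ _))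

theorem tail (h : Ok c n m K (p :: v)) : Ok c n m K v := right (u := [p]) h

theorem head (h : Ok c n m K (p :: v)) : ∃ e, Ty c K e p := by
  obtain ⟨σ, -, b⟩ := h.ty
  cases b with
  | cons a _ => exact ⟨_, a⟩

theorem rev (h : Ok c n m K w) : Ok c n m K (rv w) :=
  ⟨h.cpt, let ⟨σ, a, b⟩ := h.ty; ⟨σ.reverse, by rwa [List.count_reverse], b.rev⟩,
    by rw [length_rv]; exact h.len⟩

theorem U (t : E0 c) (hc : COV c) (h : Ok c n m K w) (g : Sg) : Ok c n m (g.act '' K) (mp c g w) :=
  ⟨h.cpt.image g.cont, h.ty.imp fun _ a => ⟨a.1, a.2.U t hc g⟩, by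
    rw [mp, List.length_map]; exact h.len⟩

theorem bd (h : Ok c n m K w) : IsBounded K := h.cpt.isBounded

end Ok

namespace Sh

variable (t : E0 c) (hc : COV c) (s : Sh c n m)
include t hc s

theorem step (h : Ok c n m K (p :: v)) : Rl c K p.2 (wv c v) (wv c (p :: v)) := by
  obtain ⟨e, a⟩ := h.head
  have := s K _ h [p] v rfl
  rwa [show rv [p] = [p.swap] from rfl, a.swap.wv_one t hc h.bd] at this

theorem wv_U (h : Ok c n m K w) (g : Sg) : wv c (mp c g w) = g.U c (wv c w) := by
  induction w with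
  | nil => exact (t.sg.vac g).1.symm
  | cons p v ih =>
    have := Rl.U t.sg (s.step t hc h) g
    rw [← ih h.tail] at this
    exact Mu1.eq t.sg (t.sg.bdd g K h.bd) this

theorem lin (z : ℂ) (h1 : Ok c n m K (u ++ p :: v)) (h2 : Ok c n m K (u ++ q :: v))
    (h3 : Ok c n m K (u ++ r :: v)) (e : r.2 = p.2 + conj z • q.2) :
    wv c (u ++ r :: v) = wv c (u ++ p :: v) + z • wv c (u ++ q :: v) := by
  have a : wv c (r :: v) = wv c (p :: v) + z • wv c (q :: v) := by
    refine Rl.uniq t.sg h3.bd (s.step t hc h3.right) ?_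
    rw [e]
    exact Rl.lin_l z (s.step t hc h1.right) (s.step t hc h2.right)
  refine Rl.uniq t.sg h3.bd (s K _ h3 u _ rfl) ?_
  rw [a]
  exact Rl.lin_r z (s K _ h1 u _ rfl) (s K _ h2 u _ rfl)

end Sh

/-! ## words of true letters -/

/-- products of operators -/
def cp (xs : List ((D → D) × (D → D))) (y : D) : D := xs.foldr (fun x z => x.1 z) y

/-- the word of a list of operators -/
def vw (c : Ctx D) (xs : List ((D → D) × (D → D))) : List (Completion D × Completion D) :=
  xs.map fun x => ((x.1 c.Q.vac : D), (x.2 c.Q.vac : D))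

theorem cp_append (xs ys : List ((D → D) × (D → D))) (y : D) : cp (xs ++ ys) y = cp xs (cp ys y) :=
  List.foldr_append

theorem rv_vw (xs : List ((D → D) × (D → D))) : rv (vw c xs) = vw c (rv xs) := by
  simp [rv, vw, List.map_reverse, Function.comp_def]

theorem cp_afs {M : VonNeumannAlgebra (Completion D)} {xs : List ((D → D) × (D → D))}
    (h : ∀ x ∈ xs, T.Afs M x.1 x.2) : T.Afs M (cp xs) (cp (rv xs)) := by
  induction xs with
  | nil => exact afs_id
  | cons x xs ih =>
    have := afs_comp (h x List.mem_cons_self) (ih fun y hy => h y (List.mem_cons_of_mem _ hy))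
    rw [rv_cons]
    rwa [show cp (rv xs ++ [x.swap]) = fun v => cp (rv xs) (x.2 v) from funext (cp_append _ _)]

theorem wv_vw (t : E0 c) (hK : IsBounded K) {xs : List ((D → D) × (D → D))}
    (h : ∀ x ∈ xs, T.Afs (c.N K) x.1 x.2) : wv c (vw c xs) = (cp xs c.Q.vac : D) := by
  induction xs with
  | nil => rfl
  | cons x xs ih =>
    show ml c _ (wv c (vw c xs)) = _
    rw [ih fun y hy => h y (List.mem_cons_of_mem _ hy)]
    exact Mu1.eq t.sg hK (rl_afs t (h x List.mem_cons_self) _)

theorem ex_vw (t : E0 c) (h : Tw c K σ w) (h0 : σ.count true = 0) :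
    ∃ xs, (∀ x ∈ xs, T.Afs (c.N K) x.1 x.2) ∧ w = vw c xs := by
  induction h with
  | nil => exact ⟨[], by simp, rfl⟩
  | @cons e p σ w a _ ih =>
    cases e
    · obtain ⟨xs, b, rfl⟩ := ih (by simpa using h0)
      obtain ⟨X, X', a1, a2, a3⟩ := Tr.al a
      refine ⟨(X, X') :: xs, fun x hx => ?_, congrArg (· :: _) (Prod.ext a2 a3)⟩
      rcases List.mem_cons.1 hx with rfl | hx
      exacts [t.grp.affa _ _ _ a1, b x hx]
    · simp at h0

theorem sp_true (t : E0 c) (hK : IsBounded K) (h : Tw c K σ w) (h0 : σ.count true = 0) :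
    Sp c K w := by
  obtain ⟨xs, b, rfl⟩ := ex_vw t h h0
  intro u v e
  obtain ⟨x1, x2, rfl, rfl, rfl⟩ := List.map_eq_append_iff.1 e
  have b1 : ∀ x ∈ x1, T.Afs (c.N K) x.1 x.2 := fun x hx => b x (List.mem_append_left _ hx)
  have b2 : ∀ x ∈ x2, T.Afs (c.N K) x.1 x.2 := fun x hx => b x (List.mem_append_right _ hx)
  have b3 : ∀ x ∈ rv x1, T.Afs (c.N K) x.1 x.2 := fun x hx => by
    obtain ⟨y, hy, rfl⟩ := List.mem_map.1 (List.mem_reverse.1 hx)
    exact afs_symm (b1 y hy)
  show Rl c K (wv c (rv (vw c x1))) (wv c (vw c x2)) _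
  rw [rv_vw, wv_vw t hK b3, wv_vw t hK b2, wv_vw t hK b, cp_append]
  exact rl_afs t (cp_afs b1) _

theorem sp_one (t : E0 c) (hc : COV c) (h : Ok c n 1 K w) : Sp c K w := by
  intro u v e
  rcases u with _ | ⟨p, u⟩
  · obtain rfl : w = v := e
    exact Rl.vac t.sg
  · have l := h.len
    rw [e, List.length_append, List.length_cons] at l
    obtain rfl : u = [] := List.length_eq_zero_iff.1 (by omega)
    obtain rfl : v = [] := List.length_eq_zero_iff.1 (by omega)
    subst e
    obtain ⟨e, a⟩ := Ok.head h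
    show Rl c K (wv c [p.swap]) c.Om (wv c [p])
    rw [a.wv_one t hc h.bd, a.swap.wv_one t hc h.bd]
    exact a.rl t hc

/-! ## proper splittings -/

/-- `ζ` is the product for all proper splittings, tested with the algebra of `C` -/
def Sq (c : Ctx D) (C : Set V) (w : List (Completion D × Completion D)) (ζ : Completion D) : Prop :=
  ∀ Z ∈ c.N C, ∀ i, 0 < i → i < w.length →
    inner ℂ (Z c.Om) ζ = inner ℂ (Z (wv c (rv (w.take i)))) (wv c (w.drop i))

/-- all proper splittings are products -/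
def Pp (c : Ctx D) (K : Set V) (w : List (Completion D × Completion D)) : Prop :=
  ∀ u v, u ≠ [] → v ≠ [] → w = u ++ v → Rl c K (wv c (rv u)) (wv c v) (wv c w)

theorem pp_of (t : E0 c) (hc : COV c) (s : Sh c n m) (h : Ok c n (m + 1) K w)
    (H : ∀ g : Sg, g.Adm K → ∃ ζ, Sq c W1 (mp c g w) ζ) : Pp c K w := by
  have key : ∀ u v, u ≠ [] → v ≠ [] → w = u ++ v → ∀ (g : Sg) ζ, Sq c W1 (mp c g w) ζ →
      Prd (M0 c) c.Om (g.U c (wv c (rv u))) (g.U c (wv c v)) ζ := by
    rintro u v hu hv rfl g ζ a x hx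
    have l := h.len
    have l1 := List.length_pos_iff.2 hu
    have l2 := List.length_pos_iff.2 hv
    rw [List.length_append] at l
    rw [dual0 t.jc] at hx
    have := a x hx u.length l1 (by simp [mp, l2])
    rwa [mp, ← List.map_take, ← List.map_drop, List.take_left, List.drop_left,
      show List.map _ u = mp c g u from rfl, show List.map _ v = mp c g v from rfl, rv_mp,
      s.wv_U t hc (h.left.le (by omega)).rev, s.wv_U t hc (h.right.le (by omega))] at this
  rintro u v hu hv e g hg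
  obtain ⟨p, u, rfl⟩ := List.exists_cons_of_ne_nil hu
  obtain ⟨b, a⟩ := Ok.head (e ▸ h)
  have k := key [p] (u ++ v) (by simp) (by simp [hv]) e
  rw [show rv [p] = [p.swap] from rfl, a.swap.wv_one t hc h.bd] at k
  obtain ⟨ζ, hζ⟩ := Mu1.glue t h.bd fun g hg => (H g hg).imp (k g)
  obtain ⟨ζ', h'⟩ := H g hg
  rw [show wv c w = ζ from e ▸ Mu1.eq t.sg h.bd hζ, Mu1.prd_uniq t.sg (hζ g hg) (k g ζ' h')]
  exact key _ _ hu hv e g ζ' h'

theorem sp_of (t : E0 c) (h2 : 2 ≤ w.length) (h : Pp c K w) (h' : Pp c K (rv w)) : Sp c K w := by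
  intro u v e
  by_cases hu : u = []
  · subst hu
    obtain rfl : w = v := e
    exact Rl.vac t.sg
  by_cases hv : v ≠ []
  · exact h u v hu hv e
  obtain rfl := not_not.1 hv
  rw [List.append_nil] at e
  subst e
  obtain ⟨p, v, rfl⟩ := List.exists_cons_of_ne_nil hu
  have hv : v ≠ [] := List.length_pos_iff.1 (by rw [List.length_cons] at h2; omega)
  intro g hg x hx
  have a := h [p] v (by simp) hv rfl g hg x hx
  have b := h' (rv v) (rv [p]) (by rwa [Ne, rv_eq_nil]) (by simp [rv]) (rv_append [p] v) g hg _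
    (star_mem hx)
  rw [rv_rv, star_inner, star_inner] at b
  rw [a, wv_nil, (t.sg.vac g).1, ← inner_conj_symm, ← b, inner_conj_symm]

end

end Vale.Agent.P352X.EB.NA
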